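import Vale.Agent.P054.T2.H588.Iso
import Vale.Agent.P054.T2.H441.ASide
import Vale.Agent.P054.T2.H431.Gex

set_option autoImplicit false
set_option linter.all false

/-! Genericity for subspaces of the `(ζ, θ)`-space which are spanned by vectors over a field `k'`
in the coordinates `(y, y')`: [GENI], [GENW]. -/

namespace Vale.Agent.P054.T2.H588

open Matrix Module
open Vale.Agent.P054.T2.H441 Vale.Agent.P054.T2.SecC Vale.Agent.P054.T2.H431

open Vale.Agent.P054.T2.H192 (Iso)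
open Vale.Agent.P054.T2.H686 (Qf zt E)

variable {n : ℕ}

theorem ztL_eq_zB (M : Matrix (Fin (n + 1)) (Fin (n + 1)) ℝ) (s : ZZ n) : ztL M s = zB M s := rfl

theorem zt_eq_zB (B : E n ≃ₗᵢ[ℝ] E n) (v : E n × E n) : zt B v = zB (mat B) (pv v) :=
  zt_eq B v

/-- `U` is spanned by vectors whose `(y, y')`-coordinates lie in `k'` -/
def OverK (k' : Subfield ℝ) (M : Matrix (Fin (n + 1)) (Fin (n + 1)) ℝ) (U : Submodule ℝ (ZZ n)) :
    Prop :=
  ∃ S : Set (ZZ n), (∀ v ∈ S, InK k' v) ∧ U = Submodule.span ℝ (zB M '' S)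

theorem OverK.mono {k k' : Subfield ℝ} (h : k ≤ k') {M : Matrix (Fin (n + 1)) (Fin (n + 1)) ℝ}
    {U : Submodule ℝ (ZZ n)} (hU : OverK k M U) : OverK k' M U := by
  obtain ⟨S, hS, rfl⟩ := hU
  exact ⟨S, fun v hv => ⟨fun i => h ((hS v hv).1 i), fun i => h ((hS v hv).2 i)⟩, rfl⟩

theorem OverK.sup {k' : Subfield ℝ} {M : Matrix (Fin (n + 1)) (Fin (n + 1)) ℝ}
    {U V : Submodule ℝ (ZZ n)} (hU : OverK k' M U) (hV : OverK k' M V) : OverK k' M (U ⊔ V) := by
  obtain ⟨S, hS, rfl⟩ := hU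
  obtain ⟨T, hT, rfl⟩ := hV
  refine ⟨S ∪ T, ?_, ?_⟩
  · rintro v (hv | hv)
    · exact hS v hv
    · exact hT v hv
  · rw [Set.image_union, Submodule.span_union]

theorem OverK.single {k' : Subfield ℝ} {M : Matrix (Fin (n + 1)) (Fin (n + 1)) ℝ}
    {v : ZZ n} (hv : InK k' v) : OverK k' M (Submodule.span ℝ {zB M v}) :=
  ⟨{v}, by simpa using hv, by rw [Set.image_singleton]⟩

theorem OverK.sup_span {k' : Subfield ℝ} {M : Matrix (Fin (n + 1)) (Fin (n + 1)) ℝ}
    {U : Submodule ℝ (ZZ n)} (hU : OverK k' M U) {v : ZZ n} (hv : InK k' v) :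
    OverK k' M (U ⊔ Submodule.span ℝ {zB M v}) := hU.sup (OverK.single hv)

theorem span_zB (M : Matrix (Fin (n + 1)) (Fin (n + 1)) ℝ) (S : Set (ZZ n)) :
    Submodule.span ℝ (zB M '' S) = (Submodule.span ℝ S).map (ztL M) := by
  rw [Submodule.map_span]
  rfl

theorem finrank_span_zB {M : Matrix (Fin (n + 1)) (Fin (n + 1)) ℝ} (hM : M * Mᵀ = 1)
    (S : Set (ZZ n)) :
    finrank ℝ (Submodule.span ℝ (zB M '' S)) = finrank ℝ (Submodule.span ℝ S) := by
  rw [span_zB]
  exact (LinearEquiv.finrank_eq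
    (Submodule.equivMapOfInjective (ztL M) (ztL_injective hM) _)).symm

/-- **[GENI]** -/
theorem genI {k' : Subfield ℝ} {M : Matrix (Fin (n + 1)) (Fin (n + 1)) ℝ} (hM : PG k' M)
    {U : Submodule ℝ (ZZ n)} (hU : OverK k' M U) (hd : finrank ℝ U ≤ n + 1)
    (hQ : finrank ℝ U < n + 1 ∨ ¬ Iso U) : ∀ x ∈ U, x.1 = 0 → x = 0 := by
  obtain ⟨S, hS, rfl⟩ := hU
  rw [finrank_span_zB hM.1] at hd hQ
  have hT : Tr M (Submodule.span ℝ S) := by
    refine A1 hM S hS hd ?_
    rcases hQ with h | h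
    · exact Or.inl h
    · right
      by_contra hcon
      push Not at hcon
      apply h
      intro a ha
      rw [span_zB] at ha
      obtain ⟨s, hs, rfl⟩ := ha
      rw [Qf_ztL hM.1]
      exact hcon s hs
  intro x hx h0
  rw [span_zB] at hx
  obtain ⟨s, hs, rfl⟩ := hx
  rw [ztL_fst, zmap_apply] at h0
  rw [hT s hs (sub_eq_zero.1 h0), map_zero]

/-- a basis over `k'` of a subspace over `k'` -/
theorem OverK.exists_basis {k' : Subfield ℝ} {M : Matrix (Fin (n + 1)) (Fin (n + 1)) ℝ}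
    (hM : M * Mᵀ = 1) {U : Submodule ℝ (ZZ n)} (hU : OverK k' M U) {m : ℕ}
    (hd : finrank ℝ U = m) :
    ∃ f : Fin m → ZZ n, (∀ i, InK k' (f i)) ∧ LinearIndependent ℝ f ∧
      U = (Submodule.span ℝ (Set.range f)).map (ztL M) := by
  obtain ⟨S, hS, rfl⟩ := hU
  rw [finrank_span_zB hM] at hd
  obtain ⟨f, hfS, hspan, hlin⟩ := Submodule.exists_fun_fin_finrank_span_eq ℝ S
  subst hd
  exact ⟨f, fun i => hS _ (hfS i), hlin, by rw [hspan, span_zB]⟩

section wrong

variable {k : Type*} [CommRing k] [Algebra k ℝ]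

/-- the linear forms `λ_i` in the coordinates `(y, y')`, based at `s'` -/
noncomputable def psiY (Y : Matrix (Fin (n + 1)) (Fin (n + 1)) ℝ) (s' : ZZ n) :
    MvPolynomial (Fin (n + 1)) ℝ →ₐ[ℝ] MvPolynomial (ZI n) ℝ :=
  MvPolynomial.aeval fun i => ∑ j, MvPolynomial.C (Y i j) *
    (MvPolynomial.X (Sum.inr j) - MvPolynomial.C (s'.2 j))

theorem psiY_cD (D : Derivation k ℝ ℝ) (Y : Matrix (Fin (n + 1)) (Fin (n + 1)) ℝ) (s' : ZZ n)
    (hY : ∀ i j, D (Y i j) = 0) (hs : ∀ j, D (s'.2 j) = 0)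
    (h : MvPolynomial (Fin (n + 1)) ℝ) : cD D (psiY Y s' h) = psiY Y s' (cD D h) := by
  induction h using MvPolynomial.induction_on with
  | C a =>
    have e1 : psiY Y s' (MvPolynomial.C a) = MvPolynomial.C a := (psiY Y s').commutes a
    rw [e1, cD_C, cD_C]
    exact ((psiY Y s').commutes (D a)).symm
  | add p q hp hq => rw [map_add, map_add, map_add, map_add, hp, hq]
  | mul_X p i hp =>
    have e1 : cD D (psiY Y s' (MvPolynomial.X i)) = 0 := by
      unfold psiY
      rw [MvPolynomial.aeval_X, map_sum]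
      refine Finset.sum_eq_zero fun j _ => ?_
      rw [Derivation.leibniz, map_sub, cD_X, cD_C, cD_C, hs, hY]
      simp
    rw [map_mul, Derivation.leibniz, e1, hp, Derivation.leibniz, cD_X, map_add]
    simp only [smul_eq_mul, mul_zero, zero_add, map_mul, map_zero]

/-- the linear forms `λ_i` in the coordinates `(ζ, θ)` -/
noncomputable def lamZ (M Y : Matrix (Fin (n + 1)) (Fin (n + 1)) ℝ) (i : Fin (n + 1)) :
    MvPolynomial (ZI n) ℝ := ∑ j, MvPolynomial.C (Y i j) * yP M (Sum.inr j)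

theorem lamZ_homog (M Y : Matrix (Fin (n + 1)) (Fin (n + 1)) ℝ) (i : Fin (n + 1)) :
    (lamZ M Y i).IsHomogeneous 1 := by
  unfold lamZ
  refine MvPolynomial.IsHomogeneous.sum _ _ _ fun j _ => ?_
  have h1 : (yP M (Sum.inr j) : MvPolynomial (ZI n) ℝ).IsHomogeneous 1 := by
    change (∑ i, MvPolynomial.C (M i j) * ((MvPolynomial.X (Sum.inr i) -
      MvPolynomial.X (Sum.inl i)) * MvPolynomial.C (1 / 2)) :
      MvPolynomial (ZI n) ℝ).IsHomogeneous 1
    refine MvPolynomial.IsHomogeneous.sum _ _ _ fun i _ => ?_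
    have h2 := (MvPolynomial.isHomogeneous_C (ZI n) (M i j)).mul
      (((MvPolynomial.isHomogeneous_X ℝ (Sum.inr i : ZI n)).sub
        (MvPolynomial.isHomogeneous_X ℝ (Sum.inl i : ZI n))).mul
        (MvPolynomial.isHomogeneous_C (ZI n) (1 / 2 : ℝ)))
    simpa using h2
  have h3 := (MvPolynomial.isHomogeneous_C (ZI n) (Y i j)).mul h1
  simpa using h3

/-- `q(X - a) = q - q(a)` -/
def Shf (a : ZI n → ℝ) (q : MvPolynomial (ZI n) ℝ) : Prop :=
  MvPolynomial.aeval (fun l => (MvPolynomial.X l - MvPolynomial.C (a l) : MvPolynomial (ZI n) ℝ)) q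
    = q - MvPolynomial.C (MvPolynomial.eval a q)

theorem Shf.X (a : ZI n → ℝ) (l : ZI n) : Shf a (MvPolynomial.X l) := by
  unfold Shf
  rw [MvPolynomial.aeval_X, MvPolynomial.eval_X]

theorem Shf.sub {a : ZI n → ℝ} {p q : MvPolynomial (ZI n) ℝ} (hp : Shf a p) (hq : Shf a q) :
    Shf a (p - q) := by
  unfold Shf at *
  rw [map_sub, hp, hq, map_sub, map_sub]
  ring

theorem Shf.mul {a : ZI n → ℝ} {p : MvPolynomial (ZI n) ℝ} (hp : Shf a p) (c : ℝ) :
    Shf a (MvPolynomial.C c * p) := by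
  unfold Shf at *
  rw [map_mul, hp, map_mul, MvPolynomial.eval_C, MvPolynomial.C_mul]
  have : MvPolynomial.aeval (fun l => (MvPolynomial.X l - MvPolynomial.C (a l) :
      MvPolynomial (ZI n) ℝ)) (MvPolynomial.C c : MvPolynomial (ZI n) ℝ) = MvPolynomial.C c :=
    (MvPolynomial.aeval _).commutes c
  rw [this]
  ring

theorem Shf.sum {a : ZI n → ℝ} {ι : Type*} (t : Finset ι) (p : ι → MvPolynomial (ZI n) ℝ)
    (hp : ∀ i, Shf a (p i)) : Shf a (∑ i ∈ t, p i) := by
  unfold Shf at *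
  rw [map_sum, map_sum, map_sum, ← Finset.sum_sub_distrib]
  exact Finset.sum_congr rfl fun i _ => hp i

theorem chg_psiY_X {M : Matrix (Fin (n + 1)) (Fin (n + 1)) ℝ} (hM : M * Mᵀ = 1)
    (Y : Matrix (Fin (n + 1)) (Fin (n + 1)) ℝ) (s' : ZZ n) (i : Fin (n + 1)) :
    chg M (psiY Y s' (MvPolynomial.X i)) =
      MvPolynomial.aeval (fun l => (MvPolynomial.X l - MvPolynomial.C (pt (zB M s') l) :
        MvPolynomial (ZI n) ℝ)) (lamZ M Y i) := by
  have h0 : Shf (pt (zB M s')) (lamZ M Y i) := by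
    unfold lamZ
    refine Shf.sum _ _ fun j => Shf.mul ?_ _
    change Shf _ (∑ i, MvPolynomial.C (M i j) * ((MvPolynomial.X (Sum.inr i) -
      MvPolynomial.X (Sum.inl i)) * MvPolynomial.C (1 / 2)))
    refine Shf.sum _ _ fun l => Shf.mul ?_ _
    rw [mul_comm]
    exact Shf.mul ((Shf.X _ _).sub (Shf.X _ _)) _
  unfold Shf at h0
  rw [h0]
  have h1 : MvPolynomial.eval (pt (zB M s')) (lamZ M Y i) = ∑ j, Y i j * s'.2 j := by
    unfold lamZ
    rw [map_sum]
    refine Finset.sum_congr rfl fun j _ => ?_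
    rw [map_mul, MvPolynomial.eval_C, ← chg_X, eval_chg hM, MvPolynomial.eval_X]
    rfl
  rw [h1]
  unfold psiY lamZ
  rw [MvPolynomial.aeval_X, map_sum, map_sum, ← Finset.sum_sub_distrib]
  refine Finset.sum_congr rfl fun j _ => ?_
  have h2 : chg M (MvPolynomial.C (Y i j)) = MvPolynomial.C (Y i j) := (chg M).commutes _
  have h3 : chg M (MvPolynomial.C (s'.2 j)) = MvPolynomial.C (s'.2 j) := (chg M).commutes _
  rw [map_mul, map_sub, chg_X, h2, h3, mul_sub, MvPolynomial.C_mul]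

theorem chg_psiY {M : Matrix (Fin (n + 1)) (Fin (n + 1)) ℝ} (hM : M * Mᵀ = 1)
    (Y : Matrix (Fin (n + 1)) (Fin (n + 1)) ℝ) (s' : ZZ n)
    (G : MvPolynomial (Fin (n + 1)) ℝ) :
    chg M (psiY Y s' G) =
      MvPolynomial.aeval (fun l => (MvPolynomial.X l - MvPolynomial.C (pt (zB M s') l) :
        MvPolynomial (ZI n) ℝ)) (MvPolynomial.aeval (lamZ M Y) G) := by
  induction G using MvPolynomial.induction_on with
  | C a =>
    have e1 : psiY Y s' (MvPolynomial.C a) = MvPolynomial.C a := (psiY Y s').commutes a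
    have e2 : MvPolynomial.aeval (lamZ M Y) (MvPolynomial.C a : MvPolynomial (Fin (n + 1)) ℝ) =
      MvPolynomial.C a := (MvPolynomial.aeval _).commutes a
    rw [e1, e2]
    exact ((chg M).commutes a).trans ((MvPolynomial.aeval _).commutes a).symm
  | add p q hp hq => rw [map_add, map_add, map_add, map_add, hp, hq]
  | mul_X p i hp =>
    rw [map_mul, map_mul, map_mul, map_mul, hp, chg_psiY_X hM, MvPolynomial.aeval_X]

theorem totalDegree_aeval_le {σ τ : Type*} (g : σ → MvPolynomial τ ℝ)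
    (hg : ∀ i, (g i).totalDegree ≤ 1) (h : MvPolynomial σ ℝ) :
    (MvPolynomial.aeval g h).totalDegree ≤ h.totalDegree := by
  classical
  rw [MvPolynomial.aeval_def, MvPolynomial.eval₂_eq]
  refine (MvPolynomial.totalDegree_finset_sum _ _).trans (Finset.sup_le fun m hm => ?_)
  refine (MvPolynomial.totalDegree_mul _ _).trans ?_
  have h1 : ((algebraMap ℝ (MvPolynomial τ ℝ)) (MvPolynomial.coeff m h)).totalDegree = 0 :=
    MvPolynomial.totalDegree_C _
  rw [h1, zero_add]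
  refine (MvPolynomial.totalDegree_finset_prod _ _).trans ?_
  refine le_trans (Finset.sum_le_sum fun i _ => ?_) (MvPolynomial.le_totalDegree hm)
  refine (MvPolynomial.totalDegree_pow _ _).trans ?_
  nlinarith [hg i]

theorem hF_comap_le' {σ τ : Type*} [Finite σ] [Finite τ] (ψ : MvPolynomial σ ℝ →ₐ[ℝ] MvPolynomial τ ℝ)
    (hψ : ∀ i, (ψ (MvPolynomial.X i)).totalDegree ≤ 1) (I : Ideal (MvPolynomial τ ℝ)) (T : ℕ) :
    Vale.Agent.P054.T2.H441.hF (I.comap ψ) T ≤ Vale.Agent.P054.T2.H441.hF I T := by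
  classical
  unfold Vale.Agent.P054.T2.H441.hF
  let Φ : (MvPolynomial σ ℝ ⧸ I.comap ψ) →ₐ[ℝ] (MvPolynomial τ ℝ ⧸ I) :=
    Ideal.quotientMapₐ I ψ le_rfl
  have hΦ : Function.Injective Φ := Ideal.quotientMap_injective
  set L := (MvPolynomial.restrictTotalDegree σ ℝ T).map
    (Ideal.Quotient.mkₐ ℝ (I.comap ψ)).toLinearMap with hL
  set R := (MvPolynomial.restrictTotalDegree τ ℝ T).map
    (Ideal.Quotient.mkₐ ℝ I).toLinearMap with hR
  have hle : L.map Φ.toLinearMap ≤ R := by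
    rintro _ ⟨_, ⟨w, hw, rfl⟩, rfl⟩
    refine ⟨ψ w, ?_, ?_⟩
    · rw [SetLike.mem_coe, MvPolynomial.mem_restrictTotalDegree] at hw ⊢
      have h1 : ψ w = MvPolynomial.aeval (fun i => ψ (MvPolynomial.X i)) w := by
        rw [← MvPolynomial.comp_aeval_apply, MvPolynomial.aeval_X_left]
        rfl
      rw [h1]
      exact (totalDegree_aeval_le _ hψ w).trans hw
    · rfl
  have h1 : finrank ℝ L = finrank ℝ (L.map Φ.toLinearMap) :=
    LinearEquiv.finrank_eq (Submodule.equivMapOfInjective Φ.toLinearMap hΦ L)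
  rw [h1]
  exact Submodule.finrank_mono hle

/-- **[GENW]** wrong type data -/
theorem genW {M : Matrix (Fin (n + 1)) (Fin (n + 1)) ℝ} (hM : PG (constF k ℝ) M)
    {U : Submodule ℝ (ZZ n)} (hU : OverK (constF k ℝ) M U) (hiso : Iso U)
    (hfin : finrank ℝ U = n + 1) (Pr : Ideal (MvPolynomial (ZI n) ℝ))
    (hstab : ∀ (D : Derivation k ℝ ℝ) (h : MvPolynomial (ZI n) ℝ), chg M h ∈ Pr →
      chg M (cD D h) ∈ Pr)
    (s' : ZZ n) (hs' : ∀ (D : Derivation k ℝ ℝ) (j : Fin (n + 1)), D (s'.2 j) = 0)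
    {C₀ σ : ℕ} (hσ : σ + 2 ≤ n + 1)
    (hP : ∀ T, Vale.Agent.P054.T2.H441.hF Pr T ≤ C₀ * (T + 1) ^ σ) :
    (∀ x ∈ U, x.1 = 0 → x = 0) ∨
    ∃ n₀ ∈ U, n₀ ≠ 0 ∧ n₀.1 = 0 ∧ (∀ x ∈ U, x.1 = 0 → ∃ c : ℝ, x = c • n₀) ∧
      ∃ D', 0 < D' ∧ ∃ G : MvPolynomial (ZI n) ℝ, G.IsHomogeneous D' ∧
        MvPolynomial.aeval (fun l => (MvPolynomial.X l - MvPolynomial.C (pt (zB M s') l) :
          MvPolynomial (ZI n) ℝ)) G ∈ Pr ∧ MvPolynomial.eval (pt n₀) G ≠ 0 := by
  classical
  obtain ⟨f, hf, hlin, hUf⟩ := hU.exists_basis hM.1 hfin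
  have hisof : ∀ s ∈ Submodule.span ℝ (Set.range f), Qv s = 0 := by
    intro s hs
    rw [← Qf_ztL hM.1]
    apply hiso
    rw [hUf]
    exact Submodule.mem_map_of_mem hs
  have hmem : ∀ x ∈ U, ∃ b : Fin (n + 1) → ℝ, x = ztL M (∑ i, b i • f i) := by
    intro x hx
    rw [hUf] at hx
    obtain ⟨s, hs, rfl⟩ := hx
    rw [SetLike.mem_coe, Submodule.mem_span_range_iff_exists_fun] at hs
    obtain ⟨b, rfl⟩ := hs
    exact ⟨b, rfl⟩
  rcases iso_dichotomy hM f hf hlin hisof with h1 | ⟨a, ha0, ha1, ha2, ha3⟩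
  · left
    intro x hx h0
    obtain ⟨b, rfl⟩ := hmem x hx
    rw [ztL_fst] at h0
    have := h1 b h0
    rw [this]
    simp
  · right
    obtain ⟨h, Y, hk, hYk, hh1, hY1, hY2, hX⟩ := exists_graph f hf hlin hisof
    set n₀ : ZZ n := ztL M (∑ i, a i • f i) with hn₀
    refine ⟨n₀, ?_, ?_, ?_, ?_, ?_⟩
    · rw [hUf]
      apply Submodule.mem_map_of_mem
      exact Submodule.sum_mem _ fun i _ => Submodule.smul_mem _ _ (Submodule.subset_span ⟨i, rfl⟩)
    · intro h0
      apply ha0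
      have h2 : (∑ i, a i • f i) = 0 := ztL_injective hM.1 (by rw [← hn₀, h0, map_zero])
      ext i
      exact Fintype.linearIndependent_iff.1 hlin a h2 i
    · exact ha1
    · intro x hx h0
      obtain ⟨b, rfl⟩ := hmem x hx
      rw [ztL_fst] at h0
      obtain ⟨c, rfl⟩ := ha2 b h0
      refine ⟨c, ?_⟩
      rw [hn₀, ← map_smul, Finset.smul_sum]
      congr 1
      refine Finset.sum_congr rfl fun i _ => ?_
      rw [Pi.smul_apply, smul_smul, smul_eq_mul]
    · -- the polynomial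
      let ψ : MvPolynomial (Fin (n + 1)) ℝ →ₐ[ℝ] MvPolynomial (ZI n) ℝ :=
        (chg M).comp (psiY Y s')
      have hYD : ∀ (D : Derivation k ℝ ℝ) i j, D (Y i j) = 0 := fun D i j =>
        (mem_constF.1 (hYk i j)) D
      have hdeg : ∀ i, (ψ (MvPolynomial.X i)).totalDegree ≤ 1 := by
        intro i
        change (chg M (psiY Y s' (MvPolynomial.X i))).totalDegree ≤ 1
        rw [chg_psiY_X hM.1]
        refine (totalDegree_aeval_le _ (fun l => ?_) _).trans
          ((lamZ_homog M Y i).totalDegree_le)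
        refine (MvPolynomial.totalDegree_sub _ _).trans (max_le ?_ ?_)
        · rw [MvPolynomial.totalDegree_X]
        · rw [MvPolynomial.totalDegree_C]; exact Nat.zero_le _
      obtain ⟨e, he, G, hG, hGP, hGn⟩ := exists_cone_generic (k := k) (Pr.comap ψ)
        (fun D h hh => by
          have h2 := hstab D (psiY Y s' h) hh
          rw [psiY_cD D Y s' (hYD D) (hs' D)] at h2
          exact h2)
        (fun _ => (0 : ℝ)) (fun l D => map_zero D) hσ
        (fun T => (hF_comap_le' ψ hdeg Pr T).trans (hP T)) a ha3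
      refine ⟨e, he, MvPolynomial.aeval (lamZ M Y) G, ?_, ?_, ?_⟩
      · have := hG.aeval (lamZ M Y) (lamZ_homog M Y)
        simpa using this
      · rw [← chg_psiY hM.1]
        have h2 : MvPolynomial.aeval (fun l => (MvPolynomial.X l - MvPolynomial.C 0 :
          MvPolynomial (Fin (n + 1)) ℝ)) G = G := by
          simp [MvPolynomial.aeval_X_left]
        rw [h2] at hGP
        exact hGP
      · have h2 : MvPolynomial.eval (pt n₀) (MvPolynomial.aeval (lamZ M Y) G) =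
            MvPolynomial.eval a G := by
          have h3 : ∀ i, MvPolynomial.eval (pt n₀) (lamZ M Y i) = a i := by
            intro i
            unfold lamZ
            rw [map_sum]
            have h4 : ∀ j, MvPolynomial.eval (pt n₀) (MvPolynomial.C (Y i j) * yP M (Sum.inr j)) =
                Y i j * (X2 f *ᵥ a) j := by
              intro j
              rw [map_mul, MvPolynomial.eval_C, ← chg_X, hn₀, ztL_eq_zB, eval_chg hM.1,
                MvPolynomial.eval_X, sum_smul_eq]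
              rfl
            simp only [h4]
            have h5 : (Y *ᵥ (X2 f *ᵥ a)) i = a i := by rw [mulVec_mulVec, hY1, one_mulVec]
            exact h5
          rw [← MvPolynomial.coe_aeval_eq_eval, ← MvPolynomial.coe_aeval_eq_eval]
          change (MvPolynomial.aeval (pt n₀)) (MvPolynomial.aeval (lamZ M Y) G) =
            MvPolynomial.aeval a G
          rw [← AlgHom.comp_apply, MvPolynomial.comp_aeval]
          congr 2
          ext i
          exact h3 i
        rw [h2]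
        exact hGn

end wrong

end Vale.Agent.P054.T2.H588
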