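import Vale.Agent.P054.T2.H588.EdgeGen
import Vale.Agent.P054.T2.H686.Setup

set_option autoImplicit false
set_option linter.all false

/-! [EDGES] for the edges `Ez P B β` of 686: everything from `Gm P B` and the stability. -/

namespace Vale.Agent.P054.T2.H588

open Matrix Module MvPolynomial
open Vale.Agent.P054.T2.H441 Vale.Agent.P054.T2.SecC Vale.Agent.P054.T2.H431
open Vale.Agent.P054.T2.H686 (Qf Bf zt E mu Gm Ez Ez_pairs Ez_swap)

variable {n : ℕ}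

theorem mem_constF_kP {k' : Subfield ℝ} {x : ℝ} (hx : x ∈ k') : x ∈ constF k' ℝ := by
  rw [mem_constF]
  intro D
  exact D.map_algebraMap (⟨x, hx⟩ : k')

theorem KK.constF {k' : Subfield ℝ} {v : E n × E n} (h : KK k' v) :
    KK (H431.constF k' ℝ) v := ⟨fun i => mem_constF_kP (h.1 i), fun i => mem_constF_kP (h.2 i)⟩

theorem GI_constF {P : Finset (E n)} {B : E n ≃ₗᵢ[ℝ] E n} (hB : Gm P B) :
    GI (H431.constF (kP P) ℝ) B :=
  hB.gi' _ fun _ hx => mem_constF.1 hx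

/-- the end points of an edge are `zt B` of points over the field of constants -/
theorem Ez_over {P : Finset (E n)} {B : E n ≃ₗᵢ[ℝ] E n} {β : ℕ} {e : ZZ n × ZZ n}
    (he : e ∈ Ez P B β) : ∃ s r : E n × E n, KK (kP P) s ∧ KK (kP P) r ∧
      KK (H431.constF (kP P) ℝ) s ∧ KK (H431.constF (kP P) ℝ) r ∧ zt B s = e.1 ∧ zt B r = e.2 := by
  obtain ⟨s, hs, r, hr, rfl, -⟩ := Ez_pairs he
  have h1 := Finset.mem_product.1 hs
  have h2 := Finset.mem_product.1 hr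
  have h3 : KK (kP P) s := KK_kP h1.1 h1.2
  have h4 : KK (kP P) r := KK_kP h2.1 h2.2
  exact ⟨s, r, h3, h4, h3.constF, h4.constF, rfl, rfl⟩

variable {A : Finset (ZZ n × ZZ n)} {W D σ v : ℕ}

/-- **[EDGES]** for `Ez P B β` -/
theorem edgeS_Ez {P : Finset (E n)} {B : E n ≃ₗᵢ[ℝ] E n} (hB : Gm P B) {β : ℕ}
    (S : Side n A W D σ v) {e : ZZ n × ZZ n} (he : e ∈ A) (heE : e ∈ Ez P B β)
    (hstab : ∀ (D : Derivation (kP P) ℝ ℝ) (h : MvPolynomial (ZI n) ℝ),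
      chg (mat B) h ∈ S.Pr e → chg (mat B) (cD D h) ∈ S.Pr e) : EdgeS S e := by
  obtain ⟨s, r, -, -, h1, h2, h3, h4⟩ := Ez_over heE
  exact edgeS_zt S he (GI_constF hB) hstab h1 h2 h3 h4

/-- the mirror image -/
theorem edgeS_Ez_swap {P : Finset (E n)} {B : E n ≃ₗᵢ[ℝ] E n} (hB : Gm P B) {β : ℕ}
    (S : Side n (swp A) W D σ v) {e : ZZ n × ZZ n} (he : e ∈ A) (heE : e ∈ Ez P B β)
    (hstab : ∀ (D : Derivation (kP P) ℝ ℝ) (h : MvPolynomial (ZI n) ℝ),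
      chg (mat B) h ∈ S.Pr e.swap → chg (mat B) (cD D h) ∈ S.Pr e.swap) : EdgeS S e.swap :=
  edgeS_Ez hB S (mem_swp.2 (by rwa [Prod.swap_swap])) (Ez_swap heE) hstab

/-- `S.V e` is defined over the field of constants -/
theorem overK_V_Ez {P : Finset (E n)} {B : E n ≃ₗᵢ[ℝ] E n} {β : ℕ}
    (S : Side n A W D σ v) {e : ZZ n × ZZ n} (heE : e ∈ Ez P B β)
    (hstab : ∀ (D : Derivation (kP P) ℝ ℝ) (h : MvPolynomial (ZI n) ℝ),
      chg (mat B) h ∈ S.Pr e → chg (mat B) (cD D h) ∈ S.Pr e) :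
    OverK (H431.constF (kP P) ℝ) (mat B) (S.V e) := by
  obtain ⟨s, r, -, -, h1, h2, h3, h4⟩ := Ez_over heE
  obtain ⟨T, hT, hTV⟩ := dirV_eq_span B (S.Pr e) hstab r h2
  refine ⟨pv '' T, ?_, ?_⟩
  · rintro _ ⟨x, hx, rfl⟩
    exact hT x hx
  · rw [side_V_eq, ← h4, hTV, ← Set.image_comp]
    congr 1
    ext x
    constructor
    · rintro ⟨y, hy, rfl⟩
      exact ⟨y, hy, zB_mat B y⟩
    · rintro ⟨y, hy, rfl⟩
      exact ⟨y, hy, (zB_mat B y).symm⟩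

end Vale.Agent.P054.T2.H588
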