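import Vale.Agent.P054.T2.H588.Gen

set_option autoImplicit false
set_option linter.all false

/-! Maximal isotropic subspaces: right type and wrong type. -/

namespace Vale.Agent.P054.T2.H588

open Matrix Module

variable {d : ℕ}

theorem updateCol_mulVec' (M : Matrix (Fin d) (Fin d) ℝ) (i : Fin d) (b v : Fin d → ℝ) :
    (M.updateCol i b) *ᵥ v = M *ᵥ (v - v i • Pi.single i 1) + v i • b := by
  have h1 : M.updateCol i b = M + vecMulVec (b - M *ᵥ Pi.single i 1) (Pi.single i 1) := by
    ext r c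
    rw [Matrix.add_apply, vecMulVec_apply, Matrix.updateCol_apply]
    by_cases h : c = i
    · subst h
      simp
    · simp [h]
  rw [h1, add_mulVec, vecMulVec_mulVec, mulVec_sub, mulVec_smul]
  ext r
  simp
  ring

theorem adj_ne_zero {M : Matrix (Fin d) (Fin d) ℝ} {w : Fin d → ℝ} (hw : w ≠ 0)
    (hMw : M *ᵥ w = 0) (hker : ∀ x, M *ᵥ x = 0 → ∃ c : ℝ, x = c • w) :
    ∃ i j, adjugate M i j ≠ 0 := by
  have hdet : M.det = 0 := Matrix.exists_mulVec_eq_zero_iff.1 ⟨w, hw, hMw⟩
  obtain ⟨b, hb⟩ : ∃ b, ∀ x, M *ᵥ x ≠ b := by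
    by_contra hcon
    push Not at hcon
    have hsurj : Function.Surjective M.mulVecLin := fun b => hcon b
    have hinj : Function.Injective M.mulVecLin := LinearMap.injective_iff_surjective.2 hsurj
    apply hw
    apply hinj
    change M *ᵥ w = M *ᵥ 0
    rw [hMw, mulVec_zero]
  obtain ⟨i, hi⟩ : ∃ i, w i ≠ 0 := by
    by_contra hcon
    push Not at hcon
    exact hw (funext hcon)
  have hd : (M.updateCol i b).det ≠ 0 := by
    intro h0
    obtain ⟨v, hv, hv0⟩ := Matrix.exists_mulVec_eq_zero_iff.2 h0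
    rw [updateCol_mulVec'] at hv0
    by_cases hvi : v i = 0
    · rw [hvi] at hv0
      simp only [zero_smul, sub_zero, add_zero] at hv0
      obtain ⟨c, hc⟩ := hker v hv0
      apply hv
      have h1 : c * w i = 0 := by
        rw [hc] at hvi
        simpa using hvi
      have h2 : c = 0 := by
        rcases mul_eq_zero.1 h1 with h | h
        · exact h
        · exact absurd h hi
      rw [hc, h2, zero_smul]
    · apply hb ((-(v i)⁻¹) • (v - v i • Pi.single i 1))
      rw [mulVec_smul]
      have h1 : M *ᵥ (v - v i • Pi.single i 1) = -(v i • b) := eq_neg_of_add_eq_zero_left hv0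
      rw [h1, smul_neg, neg_smul, neg_neg, smul_smul, inv_mul_cancel₀ hvi, one_smul]
  by_contra hcon
  push Not at hcon
  apply hd
  rw [← cramer_apply, cramer_eq_adjugate_mulVec]
  have : adjugate M = 0 := by
    ext a c
    exact hcon a c
  rw [this]
  simp

theorem ker_of_adj {M : Matrix (Fin d) (Fin d) ℝ} {i j : Fin d} (h : adjugate M i j ≠ 0)
    {x : Fin d → ℝ} (hx : M *ᵥ x = 0) (hxi : x i = 0) : x = 0 := by
  have h1 : (M.updateCol i (Pi.single j 1)).det ≠ 0 := by
    rw [← cramer_apply, cramer_eq_adjugate_mulVec]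
    simpa using h
  by_contra hne
  apply h1
  rw [← Matrix.exists_mulVec_eq_zero_iff]
  refine ⟨x, hne, ?_⟩
  rw [updateCol_mulVec', hxi]
  simp [hx]

/-- parity: wrong type -/
theorem det_sub_eq_zero {h B : Matrix (Fin d) (Fin d) ℝ} (hh1 : h * hᵀ = 1) (hB : B * Bᵀ = 1)
    (hdet : B.det = -((-1) ^ d * h.det)) : (h - B).det = 0 := by
  have hBT : Bᵀ * B = 1 := mul_eq_one_comm.1 hB
  have hhT : hᵀ * h = 1 := mul_eq_one_comm.1 hh1
  have h1 : h - B = -(B * (h - B)ᵀ * h) := by
    rw [transpose_sub, mul_sub, sub_mul, hB, Matrix.one_mul, Matrix.mul_assoc, hhT, Matrix.mul_one]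
    abel
  have h2 : (h - B).det = (-1) ^ d * (B.det * (h - B).det * h.det) := by
    conv_lhs => rw [h1]
    rw [det_neg, det_mul, det_mul, det_transpose, Fintype.card_fin]
  have h3 : h.det * h.det = 1 := by
    have := congrArg Matrix.det hh1
    rwa [det_mul, det_transpose, det_one] at this
  have h4 : ((-1 : ℝ) ^ d) * (-1) ^ d = 1 := by
    rw [← mul_pow]; norm_num
  rw [hdet] at h2
  have h5 : (h - B).det = -(h - B).det := by
    calc (h - B).det = (-1) ^ d * (-((-1) ^ d * h.det) * (h - B).det * h.det) := h2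
      _ = -((((-1 : ℝ) ^ d) * (-1) ^ d) * (h.det * h.det) * (h - B).det) := by ring
      _ = -(h - B).det := by rw [h3, h4]; ring
  linarith

/-- **(A2)** right type: no kernel -/
theorem A2 {k : Subfield ℝ} {B : Matrix (Fin d) (Fin d) ℝ} (hB : PG k B)
    {h : Matrix (Fin d) (Fin d) ℝ} (hk : ∀ i j, h i j ∈ k) (hh1 : h * hᵀ = 1)
    (hdet : B.det = (-1) ^ d * h.det) {x : Fin d → ℝ} (hx : h *ᵥ x = B *ᵥ x) : x = 0 := by
  have hhT : hᵀ * h = 1 := mul_eq_one_comm.1 hh1
  let S : Set (PV d) := Set.range fun j : Fin d => ((fun i => h i j, Pi.single j 1) : PV d)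
  have hS : ∀ s ∈ S, InK k s := by
    rintro s ⟨j, rfl⟩
    refine ⟨fun i => hk i j, fun i => ?_⟩
    by_cases hij : i = j
    · subst hij
      simpa using k.one_mem
    · simpa [Pi.single_apply, hij] using k.zero_mem
  have hmem : ∀ y : Fin d → ℝ, ((h *ᵥ y, y) : PV d) ∈ Submodule.span ℝ S := by
    intro y
    have h1 : ((h *ᵥ y, y) : PV d) = ∑ j, y j • ((fun i => h i j, Pi.single j 1) : PV d) := by
      ext i
      · simp [Prod.fst_sum, Matrix.mulVec, dotProduct, mul_comm]
      · simp [Prod.snd_sum, Pi.single_apply]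
    rw [h1]
    exact Submodule.sum_mem _ fun j _ => Submodule.smul_mem _ _ (Submodule.subset_span ⟨j, rfl⟩)
  have hsp : ∀ s ∈ Submodule.span ℝ S, s.1 = h *ᵥ s.2 := by
    intro s hs
    induction hs using Submodule.span_induction with
    | mem s hs =>
      obtain ⟨j, rfl⟩ := hs
      ext i
      simp
    | zero => simp
    | add s r _ _ hs hr => rw [Prod.fst_add, Prod.snd_add, hs, hr, mulVec_add]
    | smul c s _ hs => rw [Prod.smul_fst, Prod.smul_snd, hs, mulVec_smul]
  have hT := A1' hB S hS (C := -h) (by rw [transpose_neg, neg_mul_neg, hh1])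
    (by rw [det_neg, Fintype.card_fin, hdet]) (by
      intro s hs h1
      have h2 := hsp s hs
      rw [neg_mulVec] at h1
      have h3 : h *ᵥ s.2 = 0 := by
        have h4 : h *ᵥ s.2 = -(h *ᵥ s.2) := by rw [← h1, ← h2]
        ext i
        have := congrFun h4 i
        simp only [Pi.neg_apply] at this
        simp only [Pi.zero_apply]
        linarith
      have h4 : s.2 = 0 := by
        have : hᵀ *ᵥ (h *ᵥ s.2) = 0 := by rw [h3, mulVec_zero]
        rwa [mulVec_mulVec, hhT, one_mulVec] at this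
      ext1
      · rw [h2, h3]; rfl
      · exact h4)
  have := hT _ (hmem x) hx
  exact congrArg Prod.snd this

theorem aeval_smul_homog {k : Type*} [CommRing k] [Algebra k ℝ] {G : MvPolynomial (Fin d) k} {e : ℕ}
    (hG : G.IsHomogeneous e) (c : ℝ) (n : Fin d → ℝ) :
    MvPolynomial.aeval (c • n) G = c ^ e * MvPolynomial.aeval n G := by
  have h1 : (G.map (algebraMap k ℝ)).IsHomogeneous e := hG.map _
  rw [MvPolynomial.aeval_def, MvPolynomial.aeval_def, ← MvPolynomial.eval_map,
    ← MvPolynomial.eval_map, MvPolynomial.eval_eq, MvPolynomial.eval_eq, Finset.mul_sum]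
  refine Finset.sum_congr rfl fun m hm => ?_
  have h3 : ∑ i ∈ m.support, m i = e := by
    have := h1 (MvPolynomial.mem_support_iff.1 hm)
    rw [← this, Finsupp.weight_apply]
    simp [Finsupp.sum]
  simp only [Pi.smul_apply, smul_eq_mul, mul_pow, Finset.prod_mul_distrib]
  rw [Finset.prod_pow_eq_pow_sum, h3]
  ring

/-- **(A3)** wrong type: the kernel is a line spanned by a point which is generic over `k` -/
theorem A3 {k : Subfield ℝ} {B : Matrix (Fin d) (Fin d) ℝ} (hB : PG k B)
    {h : Matrix (Fin d) (Fin d) ℝ} (hk : ∀ i j, h i j ∈ k) (hh1 : h * hᵀ = 1)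
    (hdet : B.det = -((-1) ^ d * h.det)) :
    ∃ n : Fin d → ℝ, n ≠ 0 ∧ h *ᵥ n = B *ᵥ n ∧
      (∀ x : Fin d → ℝ, h *ᵥ x = B *ᵥ x → ∃ c : ℝ, x = c • n) ∧
      ∀ (G : MvPolynomial (Fin d) k) (e : ℕ), G.IsHomogeneous e → G ≠ 0 →
        MvPolynomial.aeval n G ≠ 0 := by
  classical
  have hhT : hᵀ * h = 1 := mul_eq_one_comm.1 hh1
  -- the dimension is positive
  have hd : 0 < d := by
    rcases Nat.eq_zero_or_pos d with h0 | h0
    · exfalso
      subst h0
      rw [det_fin_zero, det_fin_zero] at hdet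
      norm_num at hdet
    · exact h0
  let i₀ : Fin d := ⟨0, hd⟩
  have hdet0 := det_sub_eq_zero hh1 hB.1 hdet
  let hk' : Matrix (Fin d) (Fin d) k := fun i j => ⟨h i j, hk i j⟩
  let M : Matrix (Fin d) (Fin d) (MvPolynomial (Fin d × Fin d) k) := fun i j =>
    MvPolynomial.C (hk' i j) - MvPolynomial.X (i, j)
  have hM : ∀ (A : Matrix (Fin d) (Fin d) ℝ) (i j : Fin d), ev (adjugate M i j) A =
      adjugate (h - A) i j := by
    intro A i j
    have h1 := RingHom.map_adjugate
      (MvPolynomial.aeval fun ij : Fin d × Fin d => A ij.1 ij.2 :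
        MvPolynomial (Fin d × Fin d) k →ₐ[k] ℝ).toRingHom M
    have h2 : (MvPolynomial.aeval fun ij : Fin d × Fin d => A ij.1 ij.2 :
        MvPolynomial (Fin d × Fin d) k →ₐ[k] ℝ).toRingHom.mapMatrix M = h - A := by
      ext a b
      change ev (M a b) A = _
      simp only [M, ev_sub, ev_C, ev_X, Matrix.sub_apply]
      rfl
    rw [h2] at h1
    exact congrFun (congrFun h1 i) j
  -- the main point
  have key : ∀ (G : MvPolynomial (Fin d) k) (e : ℕ), G.IsHomogeneous e → G ≠ 0 →
      ∃ j, MvPolynomial.aeval (fun i => adjugate (h - B) i j) G ≠ 0 := by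
    intro G e hG hG0
    -- a point where `G` does not vanish
    obtain ⟨w, hw⟩ : ∃ w : Fin d → ℝ, MvPolynomial.aeval w (G * MvPolynomial.X i₀) ≠ 0 := by
      by_contra hcon
      push Not at hcon
      have h1 : (G * MvPolynomial.X i₀).map (algebraMap k ℝ) = 0 := by
        apply MvPolynomial.funext
        intro w
        rw [MvPolynomial.eval_map, map_zero]
        exact hcon w
      have h2 : G * MvPolynomial.X i₀ = 0 :=
        (MvPolynomial.map_injective _ (algebraMap k ℝ).injective) (by rw [h1, map_zero])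
      rcases mul_eq_zero.1 h2 with h3 | h3
      · exact hG0 h3
      · exact MvPolynomial.X_ne_zero i₀ h3
    rw [map_mul, MvPolynomial.aeval_X] at hw
    have hGw : MvPolynomial.aeval w G ≠ 0 := left_ne_zero_of_mul hw
    have hw0 : w ≠ 0 := by
      rintro rfl
      exact hw (by simp)
    -- a matrix with kernel spanned by `w`
    set C : Matrix (Fin d) (Fin d) ℝ := -(h * hh w) with hC
    have hC1 : C * Cᵀ = 1 := by
      rw [hC, transpose_neg, neg_mul_neg]
      exact orth_mul hh1 (hh_orth w)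
    have hC2 : C.det = B.det := by
      rw [hC, det_neg, det_mul, det_hh hw0, hdet, Fintype.card_fin]
      ring
    have hker : ∀ x, (h - C) *ᵥ x = 0 → ∃ c : ℝ, x = c • w := by
      intro x hx
      rw [hC, sub_neg_eq_add, add_mulVec, ← mulVec_mulVec, ← mulVec_add] at hx
      have h1 : x + hh w *ᵥ x = 0 := by
        have : hᵀ *ᵥ (h *ᵥ (x + hh w *ᵥ x)) = 0 := by rw [hx, mulVec_zero]
        rwa [mulVec_mulVec, hhT, one_mulVec] at this
      rw [hh_mulVec] at h1
      refine ⟨(w ⬝ᵥ x) / (w ⬝ᵥ w), ?_⟩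
      ext i
      have h2 := congrFun h1 i
      simp only [Pi.add_apply, Pi.sub_apply, Pi.smul_apply, smul_eq_mul, Pi.zero_apply] at h2 ⊢
      have h3 : 2 * (w ⬝ᵥ x) / (w ⬝ᵥ w) = 2 * ((w ⬝ᵥ x) / (w ⬝ᵥ w)) := by ring
      rw [h3] at h2
      linarith
    have hCw : (h - C) *ᵥ w = 0 := by
      rw [hC, sub_neg_eq_add, add_mulVec, ← mulVec_mulVec, ← mulVec_add, hh_mulVec]
      have h3 : 2 * (w ⬝ᵥ w) / (w ⬝ᵥ w) = 2 := by
        have := (dot_pos hw0).ne'
        field_simp
      rw [h3]
      have : w + (w - (2 : ℝ) • w) = 0 := by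
        ext i
        simp
        ring
      rw [this, mulVec_zero]
    obtain ⟨i, j, hij⟩ := adj_ne_zero hw0 hCw hker
    have hdC : (h - C).det = 0 := Matrix.exists_mulVec_eq_zero_iff.1 ⟨w, hw0, hCw⟩
    have hcol : (h - C) *ᵥ (fun i => adjugate (h - C) i j) = 0 := by
      have h1 := mul_adjugate (h - C)
      rw [hdC, zero_smul] at h1
      ext a
      have h2 := congrFun (congrFun h1 a) j
      rw [Matrix.mul_apply] at h2
      exact h2
    obtain ⟨c, hc⟩ := hker _ hcol
    have hc0 : c ≠ 0 := by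
      rintro rfl
      apply hij
      have := congrFun hc i
      simpa using this
    refine ⟨j, ?_⟩
    intro hzero
    have h1 : ev (MvPolynomial.bind₁ (fun i => adjugate M i j) G) B = 0 := by
      unfold ev
      rw [MvPolynomial.aeval_bind₁]
      rw [← hzero]
      congr 2
      ext i
      exact hM B i j
    have h2 := hB.2 _ h1 C hC1 hC2
    have h3 : ev (MvPolynomial.bind₁ (fun i => adjugate M i j) G) C =
        MvPolynomial.aeval (fun i => adjugate (h - C) i j) G := by
      unfold ev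
      rw [MvPolynomial.aeval_bind₁]
      congr 2
      ext i
      exact hM C i j
    rw [h3, hc, aeval_smul_homog hG] at h2
    exact (mul_ne_zero (pow_ne_zero _ hc0) hGw) h2
  -- the kernel
  have hcolB : ∀ j, (h - B) *ᵥ (fun i => adjugate (h - B) i j) = 0 := by
    intro j
    have h1 := mul_adjugate (h - B)
    rw [hdet0, zero_smul] at h1
    ext a
    have h2 := congrFun (congrFun h1 a) j
    rw [Matrix.mul_apply] at h2
    exact h2
  obtain ⟨j₀, hj₀⟩ := key (MvPolynomial.X i₀) 1 (MvPolynomial.isHomogeneous_X _ _)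
    (MvPolynomial.X_ne_zero _)
  rw [MvPolynomial.aeval_X] at hj₀
  set n : Fin d → ℝ := fun i => adjugate (h - B) i j₀ with hn
  have hn0 : n i₀ ≠ 0 := hj₀
  have hkerB : ∀ x : Fin d → ℝ, (h - B) *ᵥ x = 0 → ∃ c : ℝ, x = c • n := by
    intro x hx
    refine ⟨x i₀ / n i₀, ?_⟩
    have h1 : x - (x i₀ / n i₀) • n = 0 := by
      apply ker_of_adj hj₀
      · rw [mulVec_sub, mulVec_smul, hx, hcolB j₀]
        simp
      · simp only [Pi.sub_apply, Pi.smul_apply, smul_eq_mul]
        field_simp
        ring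
    exact sub_eq_zero.1 h1
  refine ⟨n, ?_, ?_, ?_, ?_⟩
  · intro h0
    exact hn0 (by rw [h0]; rfl)
  · have := hcolB j₀
    rw [sub_mulVec] at this
    exact sub_eq_zero.1 this
  · intro x hx
    apply hkerB
    rw [sub_mulVec, hx, sub_self]
  · intro G e hG hG0
    obtain ⟨j, hj⟩ := key G e hG hG0
    obtain ⟨c, hc⟩ := hkerB _ (hcolB j)
    rw [hc, aeval_smul_homog hG] at hj
    exact right_ne_zero_of_mul hj

end Vale.Agent.P054.T2.H588
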