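import Vale.Agent.P054.T2.H588.Cay
import Vale.Agent.P054.T2.H588.Wrong

set_option autoImplicit false
set_option linter.all false

/-! Generic orthogonal matrices over a countable subfield of the reals: existence, derivations,
genericity over fields of constants. -/

namespace Vale.Agent.P054.T2.H588

open Matrix Module

variable {d : ℕ}

theorem der_aeval {ι : Type*} [DecidableEq ι] {k' : Subfield ℝ} (s : ι → ℝ)
    (D : ι → Derivation ℤ ℝ ℝ) (hk : ∀ i, ∀ x ∈ k', D i x = 0)
    (hD : ∀ i j, D i (s j) = if i = j then 1 else 0) (i : ι) (P : MvPolynomial ι k') :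
    D i (MvPolynomial.aeval s P) = MvPolynomial.aeval s (MvPolynomial.pderiv i P) := by
  induction P using MvPolynomial.induction_on with
  | C a =>
    rw [MvPolynomial.aeval_C, MvPolynomial.pderiv_C, map_zero]
    exact hk i _ a.2
  | add p q hp hq => rw [map_add, map_add, map_add, map_add, hp, hq]
  | mul_X p j hp =>
    rw [map_mul, MvPolynomial.aeval_X, Derivation.leibniz, hp, hD, MvPolynomial.pderiv_mul,
      MvPolynomial.pderiv_X, map_add, map_mul, map_mul, MvPolynomial.aeval_X]
    simp only [smul_eq_mul, Pi.single_apply]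
    by_cases h : i = j
    · subst h
      simp
      ring
    · have h' : j ≠ i := fun h2 => h h2.symm
      simp [h, h']
      ring

/-- algebraic independence from derivations -/
theorem algInd_of_der {ι : Type*} [DecidableEq ι] {k' : Subfield ℝ} (s : ι → ℝ)
    (D : ι → Derivation ℤ ℝ ℝ) (hk : ∀ i, ∀ x ∈ k', D i x = 0)
    (hD : ∀ i j, D i (s j) = if i = j then 1 else 0) : AlgebraicIndependent k' s := by
  rw [algebraicIndependent_iff]
  have key : ∀ (n : ℕ) (P : MvPolynomial ι k'), P.totalDegree ≤ n →
      MvPolynomial.aeval s P = 0 → P = 0 := by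
    intro n
    induction n with
    | zero =>
      intro P hP h0
      have h1 := MvPolynomial.totalDegree_eq_zero_iff_eq_C.1 (Nat.le_zero.1 hP)
      rw [h1, MvPolynomial.aeval_C] at h0
      have h2 : P.coeff 0 = 0 := by
        apply (algebraMap k' ℝ).injective
        rw [h0, map_zero]
      rw [h1, h2, map_zero]
    | succ n ih =>
      intro P hP h0
      have h1 : ∀ i, MvPolynomial.pderiv i P = 0 := by
        intro i
        apply ih
        · rw [MvPolynomial.totalDegree]
          apply Finset.sup_le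
          intro m hm
          rw [MvPolynomial.mem_support_iff, MvPolynomial.coeff_pderiv] at hm
          have h2 : m + Finsupp.single i 1 ∈ P.support := by
            rw [MvPolynomial.mem_support_iff]
            exact left_ne_zero_of_mul hm
          have h3 := MvPolynomial.le_totalDegree h2
          rw [Finsupp.sum_add_index' (by simp) (by simp), Finsupp.sum_single_index rfl] at h3
          omega
        · rw [← der_aeval s D hk hD, h0, map_zero]
      have h2 : ∀ m : ι →₀ ℕ, m ≠ 0 → P.coeff m = 0 := by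
        intro m hm
        obtain ⟨i, hi⟩ : ∃ i, m i ≠ 0 := by
          by_contra hcon
          push Not at hcon
          exact hm (Finsupp.ext hcon)
        have h3 : m = (m - Finsupp.single i 1) + Finsupp.single i 1 := by
          rw [tsub_add_cancel_of_le]
          rw [Finsupp.single_le_iff]
          omega
        have h4 := congrArg (MvPolynomial.coeff (m - Finsupp.single i 1)) (h1 i)
        rw [MvPolynomial.coeff_pderiv, ← h3, MvPolynomial.coeff_zero] at h4
        rcases mul_eq_zero.1 h4 with h5 | h5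
        · exact h5
        · exfalso
          exact Nat.cast_add_one_ne_zero ((m - Finsupp.single i 1 : ι →₀ ℕ) i) h5
      have h3 : P = MvPolynomial.C (P.coeff 0) := by
        ext m
        rw [MvPolynomial.coeff_C]
        split_ifs with h
        · rw [h]
        · rw [h2 m (fun h' => h h'.symm)]
      apply ih P _ h0
      rw [h3, MvPolynomial.totalDegree_C]
      exact Nat.zero_le _
  intro P hP
  exact key _ P le_rfl hP

/-- a derivation of the reals applied to the entries of a matrix -/
theorem der_mul (D : Derivation ℤ ℝ ℝ) (M N : Matrix (Fin d) (Fin d) ℝ) :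
    (M * N).map D = M.map D * N + M * N.map D := by
  ext i j
  simp only [Matrix.map_apply, Matrix.mul_apply, Matrix.add_apply, map_sum, Derivation.leibniz,
    smul_eq_mul]
  rw [← Finset.sum_add_distrib]
  refine Finset.sum_congr rfl fun l _ => ?_
  ring

/-- every derivation acts on an orthogonal matrix through a skew matrix -/
theorem der_orth (D : Derivation ℤ ℝ ℝ) {B : Matrix (Fin d) (Fin d) ℝ} (hB : B * Bᵀ = 1) :
    (Bᵀ * B.map D)ᵀ = -(Bᵀ * B.map D) ∧ B.map D = B * (Bᵀ * B.map D) := by
  have hBT : Bᵀ * B = 1 := mul_eq_one_comm.1 hB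
  refine ⟨?_, by rw [← Matrix.mul_assoc, hB, Matrix.one_mul]⟩
  have h1 := der_mul D Bᵀ B
  rw [hBT] at h1
  have h2 : (1 : Matrix (Fin d) (Fin d) ℝ).map D = 0 := by
    ext i j
    rw [Matrix.map_apply, Matrix.one_apply]
    split_ifs <;> simp
  rw [h2] at h1
  rw [transpose_mul, transpose_transpose]
  have h3 : (B.map D)ᵀ = Bᵀ.map D := by
    rw [Matrix.transpose_map]
  rw [h3]
  exact eq_neg_of_add_eq_zero_left h1.symm

/-- the diagonal matrix `(e, 1, ..., 1)` -/
def dg (d : ℕ) (e : ℝ) : Matrix (Fin d) (Fin d) ℝ :=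
  Matrix.diagonal fun i => if i.1 = 0 then e else 1

theorem dg_mem (k : Subfield ℝ) {e : ℝ} (he : e = 1 ∨ e = -1) (i j : Fin d) : dg d e i j ∈ k := by
  unfold dg
  rw [Matrix.diagonal_apply]
  split_ifs
  · rcases he with rfl | rfl
    · exact k.one_mem
    · exact k.neg_mem k.one_mem
  · exact k.one_mem
  · exact k.zero_mem

theorem dg_orth {e : ℝ} (he : e = 1 ∨ e = -1) : dg d e * (dg d e)ᵀ = 1 := by
  unfold dg
  rw [Matrix.diagonal_transpose, Matrix.diagonal_mul_diagonal, ← Matrix.diagonal_one]
  congr 1
  ext i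
  split_ifs <;> rcases he with rfl | rfl <;> norm_num

theorem dg_det (hd : 0 < d) (e : ℝ) : (dg d e).det = e := by
  unfold dg
  rw [Matrix.det_diagonal]
  rw [Finset.prod_eq_single (⟨0, hd⟩ : Fin d)]
  · simp
  · intro b _ hb
    have : b.1 ≠ 0 := fun h => hb (Fin.ext h)
    simp [this]
  · simp

/-- **(A0)** Existence of generic orthogonal matrices over a countable field `k`, in both
components. Every skew matrix is realised by a derivation of the reals over `k`, and the matrix is
generic over every field killed by all derivations over `k`. -/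
theorem exists_PG (k : Subfield ℝ) [Countable k] (hd : 0 < d) {e : ℝ} (he : e = 1 ∨ e = -1) :
    ∃ B : Matrix (Fin d) (Fin d) ℝ, B.det = e ∧ PG k B ∧
      (∀ O : Matrix (Fin d) (Fin d) ℝ, Oᵀ = -O →
        ∃ D : Derivation k ℝ ℝ, ∀ i j, D (B i j) = (B * O) i j) ∧
      ∀ k' : Subfield ℝ, (∀ x ∈ k', ∀ D : Derivation k ℝ ℝ, D x = 0) → PG k' B := by
  classical
  obtain ⟨s, hs⟩ := exists_algebraicIndependent (k := k) (Ix d)
  set S := skew s with hSdef
  have hS : Sᵀ = -S := skew_transpose s
  set A₀ := dg d e with hA₀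
  have hA : A₀ * A₀ᵀ = 1 := dg_orth he
  have hu := (det_one_add_ne hS).isUnit
  refine ⟨cay A₀ S, ?_, PG_cay (dg_mem k he) hA hs, ?_, ?_⟩
  · rw [cay_det hS, dg_det hd]
  · intro O hO
    -- the skew matrix of the derivatives of the parameters
    set W : Matrix (Fin d) (Fin d) ℝ := (-(1 / 2 : ℝ)) • ((1 + S)ᵀ * O * (1 + S)) with hW
    have hWT : Wᵀ = -W := by
      rw [hW, transpose_smul, transpose_mul, transpose_mul, transpose_transpose, hO]
      simp only [Matrix.neg_mul, Matrix.mul_neg, smul_neg, Matrix.mul_assoc]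
    obtain ⟨D, hD⟩ := exists_derivation hs fun ij : Ix d => W ij.1.1 ij.1.2
    refine ⟨D, ?_⟩
    let D' : Derivation ℤ ℝ ℝ := D.restrictScalars ℤ
    have hDS : S.map D' = W := by
      rw [skew_surj W hWT]
      ext i j
      rw [Matrix.map_apply, hSdef]
      simp only [skew]
      split_ifs with h1 h2
      · exact hD ⟨(i, j), h1⟩
      · rw [map_neg]
        congr 1
        exact hD ⟨(j, i), h2⟩
      · exact map_zero D'
    have hDk : ∀ x ∈ k, D' x = 0 := fun x hx => D.map_algebraMap (⟨x, hx⟩ : k)
    have hDA : A₀.map D' = 0 := by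
      ext i j
      exact hDk _ (dg_mem k he i j)
    have hD1 : (1 + S).map D' = W := by
      ext i j
      rw [Matrix.map_apply, Matrix.add_apply, map_add]
      have h1 : D' ((1 : Matrix (Fin d) (Fin d) ℝ) i j) = 0 := by
        rw [Matrix.one_apply]
        split_ifs <;> simp
      rw [h1, zero_add]
      exact congrFun (congrFun hDS i) j
    have hD2 : (1 - S).map D' = -W := by
      ext i j
      rw [Matrix.map_apply, Matrix.sub_apply, map_sub]
      have h1 : D' ((1 : Matrix (Fin d) (Fin d) ℝ) i j) = 0 := by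
        rw [Matrix.one_apply]
        split_ifs <;> simp
      rw [h1, zero_sub, Matrix.neg_apply]
      congr 1
      exact congrFun (congrFun hDS i) j
    set B := cay A₀ S with hBdef
    have hmul : B * (1 + S) = A₀ * (1 - S) := cay_mul A₀ S hS
    have h3 : (B * (1 + S)).map D' = (A₀ * (1 - S)).map D' := by rw [hmul]
    rw [der_mul, der_mul, hDA, hD1, hD2, Matrix.zero_mul, zero_add] at h3
    -- `B.map D' * (1 + S) = -(A₀ + B) * W`
    have h4 : B.map D' * (1 + S) = -((A₀ + B) * W) := by
      rw [add_mul, neg_add]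
      rw [Matrix.mul_neg] at h3
      rw [← h3]
      abel
    have h5 : (A₀ + B) * (1 + S) = (2 : ℝ) • A₀ := by
      rw [add_mul, hmul, mul_add, mul_sub, Matrix.mul_one, two_smul]
      abel
    have h6 : A₀ + B = (2 : ℝ) • (A₀ * (1 + S)⁻¹) := by
      calc A₀ + B = (A₀ + B) * (1 + S) * (1 + S)⁻¹ := by
            rw [Matrix.mul_assoc, Matrix.mul_nonsing_inv _ hu, Matrix.mul_one]
        _ = _ := by rw [h5, Matrix.smul_mul]
    have hST : (1 + S)ᵀ = 1 - S := by rw [transpose_add, hS, transpose_one, sub_eq_add_neg]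
    have hcomm : (1 - S) * (1 + S) = (1 + S) * (1 - S) := by
      rw [mul_add, add_mul, sub_mul, sub_mul, mul_sub, mul_sub]
      simp
    have h7 : (A₀ + B) * W = -(B * O * (1 + S)) := by
      rw [h6, hW, hST, Matrix.smul_mul, Matrix.mul_smul, smul_smul]
      have e1 : (2 : ℝ) * (-(1 / 2)) = -1 := by norm_num
      rw [e1, neg_smul, one_smul]
      congr 1
      have e2 : A₀ * (1 + S)⁻¹ * (1 - S) = B := by
        rw [hBdef, cay_eq A₀ S hS, Matrix.mul_assoc, Matrix.mul_assoc]
        congr 1
        calc (1 + S)⁻¹ * (1 - S) = (1 + S)⁻¹ * (1 - S) * ((1 + S) * (1 + S)⁻¹) := by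
              rw [Matrix.mul_nonsing_inv _ hu, Matrix.mul_one]
          _ = (1 + S)⁻¹ * ((1 - S) * (1 + S)) * (1 + S)⁻¹ := by simp only [Matrix.mul_assoc]
          _ = (1 + S)⁻¹ * ((1 + S) * (1 - S)) * (1 + S)⁻¹ := by rw [hcomm]
          _ = ((1 + S)⁻¹ * (1 + S)) * (1 - S) * (1 + S)⁻¹ := by simp only [Matrix.mul_assoc]
          _ = (1 - S) * (1 + S)⁻¹ := by rw [Matrix.nonsing_inv_mul _ hu, Matrix.one_mul]
      rw [← Matrix.mul_assoc, ← Matrix.mul_assoc, e2]
    have h8 : B.map D' * (1 + S) = B * O * (1 + S) := by rw [h4, h7, neg_neg]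
    have h9 : B.map D' = B * O := by
      calc B.map D' = B.map D' * (1 + S) * (1 + S)⁻¹ := by
            rw [Matrix.mul_assoc, Matrix.mul_nonsing_inv _ hu, Matrix.mul_one]
        _ = B * O := by
            rw [h8, Matrix.mul_assoc, Matrix.mul_nonsing_inv _ hu, Matrix.mul_one]
    intro i j
    exact congrFun (congrFun h9 i) j
  · intro k' hk'
    apply PG_cay (dg_mem k' he) hA
    choose D hD using fun i : Ix d => exists_derivation hs fun j : Ix d => if i = j then (1 : ℝ) else 0
    exact algInd_of_der s (fun i => (D i).restrictScalars ℤ)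
      (fun i x hx => hk' x hx (D i)) (fun i j => hD i j)

end Vale.Agent.P054.T2.H588
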