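import Vale.Agent.P054.T2.H588.Cor

set_option autoImplicit false
set_option linter.all false

/-! Generic isometries `B` of `E n` over a subfield `k`, in the coordinates `zt B` of H686. -/

namespace Vale.Agent.P054.T2.H588

open Matrix Module H686 H192

variable {n : ℕ}

/-- the matrix of an isometry -/
noncomputable def mat (B : E n ≃ₗᵢ[ℝ] E n) : Matrix (Fin (n + 1)) (Fin (n + 1)) ℝ :=
  fun i j => B (EuclideanSpace.single j 1) i

theorem mat_mulVec (B : E n ≃ₗᵢ[ℝ] E n) (x : E n) (i : Fin (n + 1)) :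
    (mat B *ᵥ fun j => x j) i = B x i := by
  have h1 : x = ∑ j, x j • (EuclideanSpace.single j (1 : ℝ) : E n) := by
    ext i
    simp [Finset.sum_apply, Pi.single_apply]
  conv_rhs => rw [h1, map_sum]
  simp only [map_smul, mat, Matrix.mulVec, dotProduct]
  simp [Finset.sum_apply, mul_comm]

theorem mat_orth (B : E n ≃ₗᵢ[ℝ] E n) : mat B * (mat B)ᵀ = 1 := by
  apply mul_eq_one_comm.1
  ext i j
  rw [Matrix.mul_apply]
  have h1 : ∑ l, (mat B)ᵀ i l * mat B l j =
      inner ℝ (B (EuclideanSpace.single i 1)) (B (EuclideanSpace.single j 1)) := by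
    rw [PiLp.inner_apply]
    refine Finset.sum_congr rfl fun l _ => ?_
    simp [mat, mul_comm]
  rw [h1, LinearIsometryEquiv.inner_map_map]
  simp [Matrix.one_apply, EuclideanSpace.inner_single_left, Pi.single_apply]

/-- the isometry of an orthogonal matrix -/
noncomputable def toE (M : Matrix (Fin (n + 1)) (Fin (n + 1)) ℝ) (hM : M * Mᵀ = 1) :
    E n ≃ₗᵢ[ℝ] E n :=
  LinearIsometry.toLinearIsometryEquiv
    ({ toLinearMap := Matrix.toEuclideanLin M
       norm_map' := fun x => by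
        have h1 : ‖Matrix.toEuclideanLin M x‖ ^ 2 = ‖x‖ ^ 2 := by
          rw [EuclideanSpace.norm_sq_eq, EuclideanSpace.norm_sq_eq]
          simp only [Real.norm_eq_abs, sq_abs]
          have h2 := dot_orth hM (fun j => x j) (fun j => x j)
          simp only [dotProduct] at h2
          simp only [pow_two]
          exact h2
        exact (sq_eq_sq₀ (norm_nonneg _) (norm_nonneg _)).1 h1 } : E n →ₗᵢ[ℝ] E n) rfl

theorem toE_apply (M : Matrix (Fin (n + 1)) (Fin (n + 1)) ℝ) (hM : M * Mᵀ = 1) (x : E n)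
    (i : Fin (n + 1)) : toE M hM x i = (M *ᵥ fun j => x j) i := rfl

theorem mat_toE (M : Matrix (Fin (n + 1)) (Fin (n + 1)) ℝ) (hM : M * Mᵀ = 1) :
    mat (toE M hM) = M := by
  ext i j
  unfold mat
  rw [toE_apply]
  simp [Matrix.mulVec, dotProduct, Pi.single_apply]

/-- pairs of points as pairs of vectors -/
def pv (v : E n × E n) : PV (n + 1) := (fun i => v.1 i, fun i => v.2 i)

/-- coordinates in `k` -/
def KK (k : Subfield ℝ) (v : E n × E n) : Prop := (∀ i, v.1 i ∈ k) ∧ ∀ i, v.2 i ∈ k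

theorem KK.sub {k : Subfield ℝ} {v w : E n × E n} (hv : KK k v) (hw : KK k w) : KK k (v - w) :=
  ⟨fun i => k.sub_mem (hv.1 i) (hw.1 i), fun i => k.sub_mem (hv.2 i) (hw.2 i)⟩

theorem KK.mono {k k' : Subfield ℝ} (h : k ≤ k') {v : E n × E n} (hv : KK k v) : KK k' v :=
  ⟨fun i => h (hv.1 i), fun i => h (hv.2 i)⟩

/-- the linear isomorphism `(x, x') ↦ (ζ, θ)` on pairs of vectors -/
noncomputable def ztL (B : Matrix (Fin (n + 1)) (Fin (n + 1)) ℝ) : PV (n + 1) →ₗ[ℝ] W ℝ n :=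
  LinearMap.prod (zmap B) (LinearMap.fst ℝ _ _ + B.mulVecLin ∘ₗ LinearMap.snd ℝ _ _)

theorem ztL_fst (B : Matrix (Fin (n + 1)) (Fin (n + 1)) ℝ) (s : PV (n + 1)) :
    (ztL B s).1 = zmap B s := rfl

theorem zt_eq (B : E n ≃ₗᵢ[ℝ] E n) (v : E n × E n) : zt B v = ztL (mat B) (pv v) := by
  ext i
  · change v.1 i - B v.2 i = v.1 i - (mat B *ᵥ fun j => v.2 j) i
    rw [mat_mulVec]
  · change v.1 i + B v.2 i = v.1 i + (mat B *ᵥ fun j => v.2 j) i
    rw [mat_mulVec]

theorem ztL_injective {B : Matrix (Fin (n + 1)) (Fin (n + 1)) ℝ} (hB : B * Bᵀ = 1) :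
    Function.Injective (ztL B) := by
  rw [← LinearMap.ker_eq_bot, Submodule.eq_bot_iff]
  intro s hs
  have hBT : Bᵀ * B = 1 := mul_eq_one_comm.1 hB
  have h1 : s.1 - B *ᵥ s.2 = 0 := congrArg Prod.fst hs
  have h2 : s.1 + B *ᵥ s.2 = 0 := congrArg Prod.snd hs
  have h3 : s.1 = 0 := by
    have : (2 : ℝ) • s.1 = 0 := by
      have := congrArg₂ (· + ·) h1 h2
      simp only [add_zero] at this
      rw [← this, two_smul]
      abel
    exact (smul_eq_zero.1 this).resolve_left two_ne_zero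
  have h4 : B *ᵥ s.2 = 0 := by rwa [h3, zero_add] at h2
  have h5 : s.2 = 0 := by
    have : Bᵀ *ᵥ (B *ᵥ s.2) = 0 := by rw [h4, mulVec_zero]
    rwa [mulVec_mulVec, hBT, one_mulVec] at this
  exact Prod.ext h3 h5

theorem Qf_ztL {B : Matrix (Fin (n + 1)) (Fin (n + 1)) ℝ} (hB : B * Bᵀ = 1) (s : PV (n + 1)) :
    Qf (ztL B s) = Qv s := by
  have h2 := dot_orth hB s.2 s.2
  unfold Qv
  rw [← h2]
  unfold Qf ztL
  simp only [dotProduct, ← Finset.sum_sub_distrib]
  refine Finset.sum_congr rfl fun i _ => ?_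
  change (s.1 i - (B *ᵥ s.2) i) * (s.1 i + (B *ᵥ s.2) i) = _
  ring

/-- `B` is a generic isometry over `k` -/
def GI (k : Subfield ℝ) (B : E n ≃ₗᵢ[ℝ] E n) : Prop := PG k (mat B)

theorem GI.mono {k k' : Subfield ℝ} (h : k ≤ k') {B : E n ≃ₗᵢ[ℝ] E n} (hB : GI k' B) : GI k B :=
  PG.mono h hB

theorem span_zt (B : E n ≃ₗᵢ[ℝ] E n) (S : Set (E n × E n)) :
    Submodule.span ℝ (zt B '' S) = (Submodule.span ℝ (pv '' S)).map (ztL (mat B)) := by
  rw [Submodule.map_span, ← Set.image_comp]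
  congr 1
  ext x
  constructor
  · rintro ⟨v, hv, rfl⟩
    exact ⟨v, hv, (zt_eq B v).symm⟩
  · rintro ⟨v, hv, rfl⟩
    exact ⟨v, hv, zt_eq B v⟩

theorem finrank_span_zt (B : E n ≃ₗᵢ[ℝ] E n) (S : Set (E n × E n)) :
    finrank ℝ (Submodule.span ℝ (zt B '' S)) = finrank ℝ (Submodule.span ℝ (pv '' S)) := by
  rw [span_zt]
  exact (LinearEquiv.finrank_eq
    (Submodule.equivMapOfInjective (ztL (mat B)) (ztL_injective (mat_orth B)) _)).symm

/-- **(Z1)** zeta is injective on every subspace spanned by vectors over `k`, of dimension `< d`, or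
of dimension `d` and not isotropic -/
theorem zeta_injective {k : Subfield ℝ} {B : E n ≃ₗᵢ[ℝ] E n} (hB : GI k B)
    (S : Set (E n × E n)) (hS : ∀ v ∈ S, KK k v)
    (hd : finrank ℝ (Submodule.span ℝ (zt B '' S)) ≤ n + 1)
    (hQ : finrank ℝ (Submodule.span ℝ (zt B '' S)) < n + 1 ∨
      ¬ Iso (Submodule.span ℝ (zt B '' S))) :
    ∀ w ∈ Submodule.span ℝ (zt B '' S), w.1 = 0 → w = 0 := by
  have hT : Tr (mat B) (Submodule.span ℝ (pv '' S)) := by
    refine A1 hB (pv '' S) ?_ ?_ ?_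
    · rintro s ⟨v, hv, rfl⟩
      exact hS v hv
    · rw [← finrank_span_zt B S]; exact hd
    · rcases hQ with h | h
      · left
        rw [← finrank_span_zt B S]; exact h
      · right
        by_contra hcon
        push Not at hcon
        apply h
        intro a ha
        rw [span_zt] at ha
        obtain ⟨s, hs, rfl⟩ := ha
        rw [Qf_ztL (mat_orth B)]
        exact hcon s hs
  intro w hw h0
  rw [span_zt] at hw
  obtain ⟨s, hs, rfl⟩ := hw
  rw [ztL_fst, zmap_apply] at h0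
  rw [hT s hs (sub_eq_zero.1 h0), map_zero]

/-- **(Z2)** maximal isotropic subspaces with a basis over `k`: right type or wrong type -/
theorem zeta_iso {k : Subfield ℝ} {B : E n ≃ₗᵢ[ℝ] E n} (hB : GI k B)
    (f : Fin (n + 1) → E n × E n) (hf : ∀ i, KK k (f i))
    (hlin : LinearIndependent ℝ fun i => zt B (f i))
    (hiso : Iso (Submodule.span ℝ (Set.range fun i => zt B (f i)))) :
    (∀ b : Fin (n + 1) → ℝ, (∑ i, b i • zt B (f i)).1 = 0 → b = 0) ∨
    ∃ a : Fin (n + 1) → ℝ, a ≠ 0 ∧ (∑ i, a i • zt B (f i)).1 = 0 ∧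
      (∀ b : Fin (n + 1) → ℝ, (∑ i, b i • zt B (f i)).1 = 0 → ∃ c : ℝ, b = c • a) ∧
      ∀ (G : MvPolynomial (Fin (n + 1)) k) (e : ℕ), G.IsHomogeneous e → G ≠ 0 →
        MvPolynomial.aeval a G ≠ 0 := by
  have hzt : (fun i => zt B (f i)) = fun i => ztL (mat B) (pv (f i)) := by
    funext i
    exact zt_eq B (f i)
  have hsum : ∀ b : Fin (n + 1) → ℝ, (∑ i, b i • zt B (f i)) =
      ztL (mat B) (∑ i, b i • pv (f i)) := by
    intro b
    rw [map_sum]
    refine Finset.sum_congr rfl fun i _ => ?_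
    rw [map_smul, zt_eq]
  have hlin' : LinearIndependent ℝ fun i => pv (f i) := by
    rw [hzt] at hlin
    exact LinearIndependent.of_comp (ztL (mat B)) hlin
  have hiso' : ∀ s ∈ Submodule.span ℝ (Set.range fun i => pv (f i)), Qv s = 0 := by
    intro s hs
    rw [← Qf_ztL (mat_orth B)]
    apply hiso
    rw [Submodule.mem_span_range_iff_exists_fun] at hs ⊢
    obtain ⟨c, rfl⟩ := hs
    exact ⟨c, hsum c⟩
  have key := iso_dichotomy hB (fun i => pv (f i)) hf hlin' hiso'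
  simpa only [hsum, ztL_fst] using key

/-- a vector with a non-zero second component is not killed by the first row of every matrix of the
component -/
theorem exists_row {M : Matrix (Fin (n + 1)) (Fin (n + 1)) ℝ} (hM : M * Mᵀ = 1) (hn : 1 ≤ n)
    {x : Fin (n + 1) → ℝ} (hx : x ≠ 0) (c : ℝ) :
    ∃ C : Matrix (Fin (n + 1)) (Fin (n + 1)) ℝ, C * Cᵀ = 1 ∧ C.det = M.det ∧ (C *ᵥ x) 0 ≠ c := by
  have hMT : Mᵀ * M = 1 := mul_eq_one_comm.1 hM
  set y := M *ᵥ x with hy
  have hy0 : y ≠ 0 := by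
    intro h0
    apply hx
    have : Mᵀ *ᵥ (M *ᵥ x) = 0 := by rw [← hy, h0, mulVec_zero]
    rwa [mulVec_mulVec, hMT, one_mulVec] at this
  by_contra hcon
  push Not at hcon
  have e0 : (Pi.single 0 1 : Fin (n + 1) → ℝ) ≠ 0 := by
    intro h
    have := congrFun h 0
    simp at this
  -- rotations in the plane of `0` and `j`
  have key : ∀ (u v : Fin (n + 1) → ℝ), u ≠ 0 → v ≠ 0 → (hh u *ᵥ (hh v *ᵥ y)) 0 = c := by
    intro u v hu hv
    have h1 := hcon (hh u * hh v * M) (orth_mul (orth_mul (hh_orth u) (hh_orth v)) hM)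
      (by rw [det_mul, det_mul, det_hh hu, det_hh hv]; ring)
    rw [← h1, hy, mulVec_mulVec, mulVec_mulVec, Matrix.mul_assoc]
  have hyc : y 0 = c := by
    have h1 := key _ _ e0 e0
    rwa [mulVec_mulVec, hh_mul_self, one_mulVec] at h1
  have hj : ∀ j : Fin (n + 1), j ≠ 0 → y j = 0 ∧ c = 0 := by
    intro j hj0
    -- `v = e_0`, `u = e_0 - e_j` and `v = e_j`
    have hv0 : ∀ z : Fin (n + 1) → ℝ, hh (Pi.single 0 1) *ᵥ z = z - (2 * z 0) • Pi.single 0 1 := by
      intro z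
      rw [hh_mulVec]
      simp
    have hvj : ∀ z : Fin (n + 1) → ℝ, hh (Pi.single j 1) *ᵥ z = z - (2 * z j) • Pi.single j 1 := by
      intro z
      rw [hh_mulVec]
      simp
    have hu : ∀ z : Fin (n + 1) → ℝ, hh (Pi.single 0 1 - Pi.single j 1) *ᵥ z =
        z - (z 0 - z j) • (Pi.single 0 1 - Pi.single j 1) := by
      intro z
      rw [hh_mulVec]
      congr 2
      rw [sub_dotProduct, sub_dotProduct, dotProduct_sub, dotProduct_sub]
      simp [hj0, hj0.symm]
      ring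
    have ej : (Pi.single j 1 : Fin (n + 1) → ℝ) ≠ 0 := by
      intro h
      have := congrFun h j
      simp at this
    have e0j : (Pi.single 0 1 - Pi.single j 1 : Fin (n + 1) → ℝ) ≠ 0 := by
      intro h
      have := congrFun h 0
      simp [hj0.symm] at this
    have h1 := key _ _ e0j e0
    have h2 := key _ _ e0j ej
    have h3 := key _ _ e0 ej
    rw [hv0, hu] at h1
    rw [hvj, hu] at h2
    rw [hvj, hv0] at h3
    simp [hj0, hj0.symm] at h1 h2 h3
    constructor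
    · linarith
    · linarith
  obtain ⟨j, hj1⟩ : ∃ j : Fin (n + 1), j ≠ 0 := ⟨Fin.last n, by
    intro h
    have := congrArg Fin.val h
    simp at this
    omega⟩
  have hc := (hj j hj1).2
  apply hy0
  ext i
  by_cases hi : i = 0
  · rw [hi, hyc, hc]; rfl
  · exact (hj i hi).1

/-- **(Z3)** the first coordinate of zeta does not vanish at a vector over `k` whose second
component is not zero -/
theorem zeta_zero_ne {k : Subfield ℝ} {B : E n ≃ₗᵢ[ℝ] E n} (hB : GI k B) (hn : 1 ≤ n)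
    {v : E n × E n} (hv : KK k v) (hv2 : v.2 ≠ 0) : (zt B v).1 0 ≠ 0 := by
  intro h0
  let p : MvPolynomial (Fin (n + 1) × Fin (n + 1)) k :=
    MvPolynomial.C ⟨v.1 0, hv.1 0⟩ - ∑ j, MvPolynomial.X (0, j) * MvPolynomial.C ⟨v.2 j, hv.2 j⟩
  have hp : ∀ A : Matrix (Fin (n + 1)) (Fin (n + 1)) ℝ,
      ev p A = v.1 0 - (A *ᵥ fun j => v.2 j) 0 := by
    intro A
    simp only [p, ev_sub, ev_C, ev_X, ev_sum, ev_mul]
    rfl
  have h1 : ev p (mat B) = 0 := by
    rw [hp, mat_mulVec]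
    exact h0
  have hx : (fun j => v.2 j) ≠ 0 := by
    intro h
    apply hv2
    ext j
    exact congrFun h j
  obtain ⟨C, hC, hdet, hne⟩ := exists_row (mat_orth B) hn hx (v.1 0)
  have h2 := hB.2 p h1 C hC hdet
  rw [hp] at h2
  exact hne (by linarith)

/-- **(Z3')** adjacent points have different first coordinates -/
theorem zeta_zero_ne_of_adj {k : Subfield ℝ} {B : E n ≃ₗᵢ[ℝ] E n} (hB : GI k B) (hn : 1 ≤ n)
    {s r : E n × E n} (hs : KK k s) (hr : KK k r) (hne : s.2 ≠ r.2) :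
    (zt B s).1 0 ≠ (zt B r).1 0 := by
  have h1 := zeta_zero_ne hB hn (hs.sub hr) (by
    intro h
    exact hne (sub_eq_zero.1 h))
  rw [zt_sub] at h1
  exact fun h => h1 (by rw [Prod.fst_sub, Pi.sub_apply, h, sub_self])

/-- **(Z4)** equal meeting points: collinear (`d ≥ 3`) -/
theorem onLine_of_mu_eq {k : Subfield ℝ} {B : E n ≃ₗᵢ[ℝ] E n} (hB : GI k B) (hn : 2 ≤ n)
    {s r r' : E n × E n} (hs : KK k s) (hr : KK k r) (hr' : KK k r')
    (h0 : (zt B s).1 0 ≠ (zt B r).1 0) (h0' : (zt B s).1 0 ≠ (zt B r').1 0)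
    (hmu : mu (zt B s) (zt B r) = mu (zt B s) (zt B r')) :
    ∃ a : ℝ, r' - s = a • (r - s) := by
  set S : Set (E n × E n) := {r - s, r' - s} with hS
  have hSk : ∀ v ∈ S, KK k v := by
    intro v hv
    rcases hv with rfl | rfl
    · exact hr.sub hs
    · exact hr'.sub hs
  have hfin : finrank ℝ (Submodule.span ℝ (zt B '' S)) ≤ 2 := by
    rw [hS, Set.image_pair]
    have := finrank_span_finset_le_card (R := ℝ) ({zt B (r - s), zt B (r' - s)} : Finset (W ℝ n))
    rw [Finset.coe_pair] at this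
    exact this.trans (Finset.card_le_two)
  have hz := zeta_injective hB S hSk (by omega) (Or.inl (by omega))
  set c := ((zt B s).1 0 - (zt B r').1 0) / ((zt B s).1 0 - (zt B r).1 0) with hc
  have hd : (zt B s).1 0 - (zt B r).1 0 ≠ 0 := sub_ne_zero.2 h0
  have hd' : (zt B s).1 0 - (zt B r').1 0 ≠ 0 := sub_ne_zero.2 h0'
  have h1 : zt B (r' - s) - c • zt B (r - s) = 0 := by
    apply hz
    · apply Submodule.sub_mem
      · exact Submodule.subset_span ⟨r' - s, by simp [hS], rfl⟩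
      · exact Submodule.smul_mem _ _ (Submodule.subset_span ⟨r - s, by simp [hS], rfl⟩)
    · ext i
      rw [zt_sub, zt_sub]
      simp only [Prod.fst_sub, Prod.smul_fst, Pi.sub_apply, Pi.smul_apply, smul_eq_mul,
        Pi.zero_apply]
      refine Fin.cases ?_ (fun j => ?_) i
      · rw [hc]
        field_simp
        ring
      · have h2 := congrFun hmu j
        simp only [mu] at h2
        rw [div_eq_div_iff hd hd'] at h2
        rw [hc]
        field_simp
        linarith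
  refine ⟨c, ?_⟩
  have h2 : zt B (r' - s) = zt B (c • (r - s)) := by
    rw [sub_eq_zero.1 h1]
    ext i
    · simp only [zt, Prod.smul_fst, Prod.smul_snd, Pi.smul_apply, smul_eq_mul, map_smul,
        PiLp.smul_apply]
      ring
    · simp only [zt, Prod.smul_fst, Prod.smul_snd, Pi.smul_apply, smul_eq_mul, map_smul,
        PiLp.smul_apply]
      ring
  exact zt_injective B h2

theorem onLine_of_mu_eq' {k : Subfield ℝ} {B : E n ≃ₗᵢ[ℝ] E n} (hB : GI k B) (hn : 2 ≤ n)
    {s r r' : E n × E n} (hs : KK k s) (hr : KK k r) (hr' : KK k r')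
    (h0 : (zt B s).1 0 ≠ (zt B r).1 0) (h0' : (zt B s).1 0 ≠ (zt B r').1 0)
    (hmu : mu (zt B s) (zt B r) = mu (zt B s) (zt B r')) :
    H269.onLine s.1 r.1 r'.1 := by
  obtain ⟨a, ha⟩ := onLine_of_mu_eq hB hn hs hr hr' h0 h0' hmu
  refine ⟨a, ?_⟩
  have h1 := congrArg Prod.fst ha
  rw [Prod.fst_sub, Prod.smul_fst, Prod.fst_sub] at h1
  rw [← h1]
  abel

/-- the field generated by the coordinates of a finite set of points -/
noncomputable def kP (P : Finset (E n)) : Subfield ℝ :=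
  Subfield.closure {x | ∃ p ∈ P, ∃ i, x = p i}

theorem KK_kP {P : Finset (E n)} {v : E n × E n} (h1 : v.1 ∈ P) (h2 : v.2 ∈ P) : KK (kP P) v :=
  ⟨fun i => Subfield.subset_closure ⟨v.1, h1, i, rfl⟩,
    fun i => Subfield.subset_closure ⟨v.2, h2, i, rfl⟩⟩

instance kP_countable (P : Finset (E n)) : Countable (kP P) := by
  rw [← Cardinal.mk_le_aleph0_iff]
  refine (Subfield.cardinalMk_closure_le_max _).trans (max_le ?_ le_rfl)
  rw [Cardinal.mk_le_aleph0_iff]
  have h1 : {x | ∃ p ∈ P, ∃ i, x = p i} = ⋃ p ∈ P, Set.range fun i => p i := by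
    ext x
    simp only [Set.mem_setOf_eq, Set.mem_iUnion, Set.mem_range, exists_prop]
    constructor
    · rintro ⟨p, hp, i, rfl⟩; exact ⟨p, hp, i, rfl⟩
    · rintro ⟨p, hp, i, rfl⟩; exact ⟨p, hp, i, rfl⟩
  rw [h1]
  exact ((P.finite_toSet.biUnion fun p _ => Set.finite_range _).countable).to_subtype

/-- **(Z0)** existence of generic isometries -/
theorem exists_GI (k : Subfield ℝ) [Countable k] {e : ℝ} (he : e = 1 ∨ e = -1) :
    ∃ B : E n ≃ₗᵢ[ℝ] E n, (mat B).det = e ∧ GI k B ∧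
      (∀ O : Matrix (Fin (n + 1)) (Fin (n + 1)) ℝ, Oᵀ = -O →
        ∃ D : Derivation k ℝ ℝ, ∀ i j, D (mat B i j) = (mat B * O) i j) ∧
      ∀ k' : Subfield ℝ, (∀ x ∈ k', ∀ D : Derivation k ℝ ℝ, D x = 0) → GI k' B := by
  obtain ⟨M, h1, h2, h3, h4⟩ := exists_PG k (Nat.succ_pos n) he
  have h5 := mat_toE M h2.1
  exact ⟨toE M h2.1, by rw [h5]; exact h1, by unfold GI; rw [h5]; exact h2,
    by rw [h5]; exact h3, fun k' hk' => by unfold GI; rw [h5]; exact h4 k' hk'⟩

end Vale.Agent.P054.T2.H588
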