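import Mathlib

/-! Derivations of a field with prescribed values at algebraically independent elements
(characteristic zero), and algebraically independent reals over a countable field. -/

namespace Vale.Agent.P054.T2.H588

open scoped TensorProduct

/-- Prescribed values at a transcendence basis. -/
theorem exists_derivation_of_basis {k K : Type*} [Field k] [Field K] [CharZero K] [Algebra k K]
    {ι : Type*} {v : ι → K} (hv : IsTranscendenceBasis k v) (c : ι → K) :
    ∃ D : Derivation k K K, ∀ i, D (v i) = c i := by
  classical
  let S := MvPolynomial ι k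
  let algSK : Algebra S K := (MvPolynomial.aeval v).toRingHom.toAlgebra
  have tow : IsScalarTower k S K := IsScalarTower.of_algebraMap_eq fun r =>
    ((MvPolynomial.aeval v : MvPolynomial ι k →ₐ[k] K).commutes r).symm
  -- formal etaleness
  have hvi := hv.1
  let A := Algebra.adjoin k (Set.range v)
  let E := IntermediateField.adjoin k (Set.range v)
  have : Algebra.FormallyEtale S K := by
    let algSA : Algebra S A := hvi.aevalEquiv.toAlgHom.toRingHom.toAlgebra
    have e1 : Algebra.FormallyEtale S A := by
      let e : S ≃ₐ[S] A := AlgEquiv.ofBijective (Algebra.ofId S A) hvi.aevalEquiv.bijective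
      exact Algebra.FormallyEtale.of_equiv e
    open scoped IntermediateField.algebraAdjoinAdjoin in
    have e2 : Algebra.FormallyEtale A E :=
      Algebra.FormallyEtale.of_isLocalization (nonZeroDivisors _)
    have : Algebra.IsAlgebraic E K := hv.isAlgebraic_field
    have : CharZero E := (RingHom.charZero_iff (algebraMap E K).injective).mpr inferInstance
    have : Algebra.IsSeparable E K := inferInstance
    have e3 : Algebra.FormallyEtale E K := Algebra.FormallyEtale.of_isSeparable _ _
    open scoped IntermediateField.algebraAdjoinAdjoin in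
    have e4 : Algebra.FormallyEtale A K := Algebra.FormallyEtale.comp _ E _
    have : IsScalarTower S A K := IsScalarTower.of_algebraMap_eq fun r => by
      change MvPolynomial.aeval v r = ((hvi.aevalEquiv r : A) : K)
      simp
    exact Algebra.FormallyEtale.comp _ A _
  let d0 : Derivation k S K := MvPolynomial.mkDerivation k c
  let e := KaehlerDifferential.tensorKaehlerEquivOfFormallyEtale k S K
  let f : Ω[K⁄k] →ₗ[K] K := (LinearMap.liftBaseChange K d0.liftKaehlerDifferential) ∘ₗ e.symm.toLinearMap
  refine ⟨f.compDer (KaehlerDifferential.D k K), fun i => ?_⟩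
  have h1 : v i = algebraMap S K (MvPolynomial.X i) := by
    change _ = MvPolynomial.aeval v _
    simp
  have h2 : e.symm (KaehlerDifferential.D k K (algebraMap S K (MvPolynomial.X i))) = _ :=
    KaehlerDifferential.tensorKaehlerEquivOfFormallyEtale_symm_D_algebraMap k S K
    (MvPolynomial.X i)
  have h3 : (f.compDer (KaehlerDifferential.D k K)) (v i) =
      (LinearMap.liftBaseChange K d0.liftKaehlerDifferential)
        (e.symm (KaehlerDifferential.D k K (algebraMap S K (MvPolynomial.X i)))) := by
    rw [h1]; rfl
  rw [h3, h2, LinearMap.liftBaseChange_tmul, one_smul, Derivation.liftKaehlerDifferential_comp_D]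
  exact MvPolynomial.mkDerivation_X k c i

/-- Prescribed values at algebraically independent elements. -/
theorem exists_derivation {k K : Type*} [Field k] [Field K] [CharZero K] [Algebra k K]
    {ι : Type*} {v : ι → K} (hv : AlgebraicIndependent k v) (c : ι → K) :
    ∃ D : Derivation k K K, ∀ i, D (v i) = c i := by
  classical
  obtain ⟨t, hst, ht⟩ := exists_isTranscendenceBasis_superset hv.coe_range
  let c' : t → K := fun x => if h : ∃ i, v i = (x : K) then c h.choose else 0
  obtain ⟨D, hD⟩ := exists_derivation_of_basis ht c'
  refine ⟨D, fun i => ?_⟩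
  have h := hD ⟨v i, hst ⟨i, rfl⟩⟩
  have hex : ∃ j, v j = v i := ⟨i, rfl⟩
  have hj : hex.choose = i := hv.injective hex.choose_spec
  simp only [c'] at h
  rw [h, dif_pos hex, hj]

/-- Over a countable field there are as many algebraically independent reals as one wants. -/
theorem exists_algebraicIndependent {k : Type} [Field k] [Countable k] [Algebra k ℝ]
    (ι : Type) [Countable ι] : ∃ v : ι → ℝ, AlgebraicIndependent k v := by
  classical
  obtain ⟨κ, x, hx⟩ := exists_isTranscendenceBasis' k ℝ
  have hκ : Infinite κ := by
    by_contra hfin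
    rw [not_infinite_iff_finite] at hfin
    rcases isEmpty_or_nonempty κ with he | hne
    · have halg : Algebra.IsAlgebraic k ℝ := by
        rw [← hx.isEmpty_iff_isAlgebraic]; exact he
      have h1 := Algebra.IsAlgebraic.cardinalMk_le_max k ℝ
      rw [Cardinal.mk_real] at h1
      have h2 : (Cardinal.mk k) ≤ Cardinal.aleph0 := Cardinal.mk_le_aleph0
      have h3 := h1.trans (max_le h2 le_rfl)
      exact absurd h3 (not_le.mpr Cardinal.aleph0_lt_continuum)
    · have h1 := hx.lift_cardinalMk_eq_max_lift
      simp only [Cardinal.lift_id, Cardinal.mk_real] at h1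
      have h2 : (Cardinal.mk k) ≤ Cardinal.aleph0 := Cardinal.mk_le_aleph0
      have h3 : (Cardinal.mk κ) ≤ Cardinal.aleph0 := Cardinal.mk_le_aleph0
      have h4 := h1.le.trans (max_le (max_le h2 h3) le_rfl)
      exact absurd h4 (not_le.mpr Cardinal.aleph0_lt_continuum)
  obtain ⟨f⟩ : Nonempty (ι ↪ κ) := by
    rw [← Cardinal.le_def]
    exact Cardinal.mk_le_aleph0.trans (Cardinal.aleph0_le_mk κ)
  exact ⟨x ∘ f, hx.1.comp f f.injective⟩

end Vale.Agent.P054.T2.H588
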