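import Vale.Agent.P054.T2.H588.Gen
import Vale.Agent.P054.T2.H588.Der

set_option autoImplicit false
set_option linter.all false

/-! Existence of generic orthogonal matrices (Cayley transform), derivations. -/

namespace Vale.Agent.P054.T2.H588

open Matrix Module

variable {d : ℕ}

/-- positions above the diagonal -/
abbrev Ix (d : ℕ) := {ij : Fin d × Fin d // ij.1 < ij.2}

/-- the skew matrix with given entries above the diagonal -/
def skew {R : Type*} [CommRing R] (s : Ix d → R) : Matrix (Fin d) (Fin d) R := fun i j =>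
  if h : i < j then s ⟨(i, j), h⟩ else if h : j < i then -s ⟨(j, i), h⟩ else 0

theorem skew_map {R R' : Type*} [CommRing R] [CommRing R'] (φ : R →+* R') (s : Ix d → R) :
    (skew s).map φ = skew fun i => φ (s i) := by
  ext i j
  simp only [skew, Matrix.map_apply]
  split_ifs <;> simp

theorem skew_transpose {R : Type*} [CommRing R] (s : Ix d → R) : (skew s)ᵀ = -skew s := by
  ext i j
  simp only [skew, Matrix.transpose_apply, Matrix.neg_apply]
  rcases lt_trichotomy i j with h | h | h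
  · simp [h, h.not_gt]
  · subst h; simp
  · simp [h, h.not_gt]

theorem skew_surj (S : Matrix (Fin d) (Fin d) ℝ) (hS : Sᵀ = -S) :
    S = skew fun ij : Ix d => S ij.1.1 ij.1.2 := by
  have h0 : ∀ i j, S j i = -S i j := fun i j => congrFun (congrFun hS i) j
  ext i j
  simp only [skew]
  rcases lt_trichotomy i j with h | h | h
  · simp [h]
  · subst h
    have := h0 i i
    simp
    linarith
  · simp [h, h.not_gt]
    linarith [h0 i j]

theorem det_one_add_ne {S : Matrix (Fin d) (Fin d) ℝ} (hS : Sᵀ = -S) : (1 + S).det ≠ 0 := by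
  intro h0
  obtain ⟨v, hv, hv0⟩ := Matrix.exists_mulVec_eq_zero_iff.2 h0
  have h1 : v ⬝ᵥ (S *ᵥ v) = 0 := by
    have h2 : v ⬝ᵥ (S *ᵥ v) = -(v ⬝ᵥ (S *ᵥ v)) := by
      calc v ⬝ᵥ (S *ᵥ v) = (S *ᵥ v) ⬝ᵥ v := dotProduct_comm _ _
        _ = v ⬝ᵥ (Sᵀ *ᵥ v) := by rw [mulVec_transpose, dotProduct_comm v (v ᵥ* S),
              ← dotProduct_mulVec, dotProduct_comm]
        _ = -(v ⬝ᵥ (S *ᵥ v)) := by rw [hS, neg_mulVec, dotProduct_neg]
    linarith
  have h3 : v ⬝ᵥ ((1 + S) *ᵥ v) = 0 := by rw [hv0, dotProduct_zero]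
  rw [add_mulVec, one_mulVec, dotProduct_add, h1, add_zero] at h3
  exact hv (dotProduct_self_eq_zero.1 h3)

/-- the Cayley transform times the determinant -/
def cayN {R : Type*} [CommRing R] (A₀ S : Matrix (Fin d) (Fin d) R) : Matrix (Fin d) (Fin d) R :=
  A₀ * (1 - S) * adjugate (1 + S)

/-- the Cayley transform -/
noncomputable def cay (A₀ S : Matrix (Fin d) (Fin d) ℝ) : Matrix (Fin d) (Fin d) ℝ :=
  ((1 + S).det)⁻¹ • cayN A₀ S

theorem cay_eq (A₀ S : Matrix (Fin d) (Fin d) ℝ) (hS : Sᵀ = -S) :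
    cay A₀ S = A₀ * (1 - S) * (1 + S)⁻¹ := by
  rw [cay, cayN, Matrix.inv_def, Ring.inverse_eq_inv', Matrix.mul_smul]

theorem cay_mul (A₀ S : Matrix (Fin d) (Fin d) ℝ) (hS : Sᵀ = -S) :
    cay A₀ S * (1 + S) = A₀ * (1 - S) := by
  rw [cay_eq A₀ S hS, Matrix.mul_assoc, Matrix.nonsing_inv_mul, Matrix.mul_one]
  exact (det_one_add_ne hS).isUnit

theorem cay_orth {A₀ S : Matrix (Fin d) (Fin d) ℝ} (hA : A₀ * A₀ᵀ = 1) (hS : Sᵀ = -S) :
    cay A₀ S * (cay A₀ S)ᵀ = 1 := by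
  have hu := (det_one_add_ne hS).isUnit
  have hST : (1 + S)ᵀ = 1 - S := by rw [transpose_add, hS, transpose_one, sub_eq_add_neg]
  have hST' : (1 - S)ᵀ = 1 + S := by
    rw [transpose_sub, hS, transpose_one, sub_neg_eq_add]
  have hcomm : (1 - S) * (1 + S) = (1 + S) * (1 - S) := by
    rw [mul_add, add_mul, sub_mul, sub_mul, mul_sub, mul_sub]
    simp
  have hu' : IsUnit (1 - S).det := by
    rw [← hST, det_transpose]; exact hu
  rw [cay_eq A₀ S hS, transpose_mul, transpose_mul, transpose_nonsing_inv, hST, hST']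
  calc A₀ * (1 - S) * (1 + S)⁻¹ * ((1 - S)⁻¹ * ((1 + S) * A₀ᵀ))
      = A₀ * ((1 - S) * ((1 + S)⁻¹ * (1 - S)⁻¹) * (1 + S)) * A₀ᵀ := by
        simp only [Matrix.mul_assoc]
    _ = A₀ * ((1 - S) * ((1 - S)⁻¹ * (1 + S)⁻¹) * (1 + S)) * A₀ᵀ := by
        rw [← Matrix.mul_inv_rev, ← Matrix.mul_inv_rev, hcomm]
    _ = A₀ * (((1 - S) * (1 - S)⁻¹) * ((1 + S)⁻¹ * (1 + S))) * A₀ᵀ := by
        simp only [Matrix.mul_assoc]
    _ = 1 := by
        rw [Matrix.mul_nonsing_inv _ hu', Matrix.nonsing_inv_mul _ hu]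
        simp [hA]

theorem cay_det {A₀ S : Matrix (Fin d) (Fin d) ℝ} (hS : Sᵀ = -S) :
    (cay A₀ S).det = A₀.det := by
  have h1 := congrArg Matrix.det (cay_mul A₀ S hS)
  have hST : (1 + S)ᵀ = 1 - S := by rw [transpose_add, hS, transpose_one, sub_eq_add_neg]
  rw [det_mul, det_mul, ← hST, det_transpose] at h1
  exact mul_right_cancel₀ (det_one_add_ne hS) h1

/-- the chart: every orthogonal matrix `B` with `det (A₀ + B) ≠ 0` is a Cayley transform -/
theorem exists_cay {A₀ B : Matrix (Fin d) (Fin d) ℝ} (hA : A₀ * A₀ᵀ = 1) (hB : B * Bᵀ = 1)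
    (hdet : (A₀ + B).det ≠ 0) : ∃ S : Matrix (Fin d) (Fin d) ℝ, Sᵀ = -S ∧ cay A₀ S = B := by
  have hAT : A₀ᵀ * A₀ = 1 := mul_eq_one_comm.1 hA
  have hBT : Bᵀ * B = 1 := mul_eq_one_comm.1 hB
  set P := A₀ + B with hP
  have hu : IsUnit P.det := hdet.isUnit
  have huT : IsUnit Pᵀ.det := by rw [det_transpose]; exact hu
  set S := P⁻¹ * (A₀ - B) with hSdef
  have hPS : P * S = A₀ - B := by rw [hSdef, ← Matrix.mul_assoc, Matrix.mul_nonsing_inv _ hu, Matrix.one_mul]
  have hS : Sᵀ = -S := by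
    -- P^T P S^T... : `P * S = A₀ - B`, `Sᵀ * Pᵀ = (A₀ - B)ᵀ`
    have h1 : Sᵀ * Pᵀ = A₀ᵀ - Bᵀ := by rw [← transpose_mul, hPS, transpose_sub]
    have h2 : Pᵀ * (P * S + P * Sᵀ) * Pᵀ = 0 := by
      have e1 : Pᵀ * (P * S) * Pᵀ = Pᵀ * (A₀ - B) * Pᵀ := by rw [hPS]
      have e2 : Pᵀ * (P * Sᵀ) * Pᵀ = Pᵀ * P * (A₀ᵀ - Bᵀ) := by
        rw [← h1]; simp only [Matrix.mul_assoc]
      rw [mul_add, add_mul, e1, e2]
      have e3 : Pᵀ * (A₀ - B) * Pᵀ = Pᵀ * ((A₀ - B) * Pᵀ) := Matrix.mul_assoc _ _ _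
      have e4 : Pᵀ * P * (A₀ᵀ - Bᵀ) = Pᵀ * (P * (A₀ᵀ - Bᵀ)) := Matrix.mul_assoc _ _ _
      rw [e3, e4, ← mul_add]
      have e5 : (A₀ - B) * Pᵀ + P * (A₀ᵀ - Bᵀ) = 0 := by
        rw [hP, transpose_add, sub_mul, mul_add, mul_add, add_mul, mul_sub, mul_sub, hA, hB]
        abel
      rw [e5, mul_zero]
    have h3 : P * S + P * Sᵀ = 0 := by
      have h4 : (Pᵀ)⁻¹ * (Pᵀ * (P * S + P * Sᵀ) * Pᵀ) * (Pᵀ)⁻¹ = 0 := by rw [h2]; simp
      have h5 : (Pᵀ)⁻¹ * (Pᵀ * (P * S + P * Sᵀ) * Pᵀ) * (Pᵀ)⁻¹ =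
          ((Pᵀ)⁻¹ * Pᵀ) * (P * S + P * Sᵀ) * (Pᵀ * (Pᵀ)⁻¹) := by
        simp only [Matrix.mul_assoc]
      rw [h5, Matrix.mul_nonsing_inv _ huT, Matrix.nonsing_inv_mul _ huT] at h4
      simpa using h4
    have h6 : P * (S + Sᵀ) = 0 := by rw [mul_add]; exact h3
    have h7 : S + Sᵀ = 0 := by
      have : P⁻¹ * (P * (S + Sᵀ)) = 0 := by rw [h6, mul_zero]
      rwa [← Matrix.mul_assoc, Matrix.nonsing_inv_mul _ hu, Matrix.one_mul] at this
    exact eq_neg_of_add_eq_zero_right h7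
  refine ⟨S, hS, ?_⟩
  have h1 : B * (1 + S) = A₀ * (1 - S) := by
    rw [mul_add, mul_sub, mul_one, mul_one]
    have h2 : A₀ * S + B * S = A₀ - B := by rw [← add_mul, ← hP, hPS]
    rw [eq_sub_iff_add_eq]
    calc B + B * S + A₀ * S = B + (A₀ * S + B * S) := by abel
      _ = A₀ := by rw [h2]; abel
  have h3 : cay A₀ S * (1 + S) = B * (1 + S) := by rw [cay_mul A₀ S hS, h1]
  have hu1 := (det_one_add_ne hS).isUnit
  calc cay A₀ S = cay A₀ S * (1 + S) * (1 + S)⁻¹ := by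
        rw [Matrix.mul_assoc, Matrix.mul_nonsing_inv _ hu1, Matrix.mul_one]
    _ = B := by rw [h3, Matrix.mul_assoc, Matrix.mul_nonsing_inv _ hu1, Matrix.mul_one]

/-- homogenisation -/
theorem exists_homog {σ : Type*} {k : Type*} [CommRing k] [Algebra k ℝ] (p : MvPolynomial σ k) :
    ∃ (N : ℕ) (q : MvPolynomial (Option σ) k), ∀ (y : σ → ℝ) (t : ℝ), t ≠ 0 →
      MvPolynomial.aeval (fun o : Option σ => o.elim t y) q =
        t ^ N * MvPolynomial.aeval (fun i => t⁻¹ * y i) p := by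
  induction p using MvPolynomial.induction_on with
  | C a =>
    refine ⟨0, MvPolynomial.C a, fun y t ht => ?_⟩
    rw [MvPolynomial.aeval_C, MvPolynomial.aeval_C]
    simp
  | add p q hp hq =>
    obtain ⟨N₁, q₁, h₁⟩ := hp
    obtain ⟨N₂, q₂, h₂⟩ := hq
    refine ⟨N₁ + N₂, MvPolynomial.X none ^ N₂ * q₁ + MvPolynomial.X none ^ N₁ * q₂,
      fun y t ht => ?_⟩
    rw [map_add, map_mul, map_mul, map_pow, map_pow, MvPolynomial.aeval_X, h₁ y t ht, h₂ y t ht,
      map_add]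
    simp only [Option.elim_none]
    ring
  | mul_X p i hp =>
    obtain ⟨N, q, h⟩ := hp
    refine ⟨N + 1, q * MvPolynomial.X (some i), fun y t ht => ?_⟩
    rw [map_mul, map_mul, MvPolynomial.aeval_X, MvPolynomial.aeval_X, h y t ht]
    simp only [Option.elim_some]
    rw [pow_succ]
    have h1 : t * (t⁻¹ * y i) = y i := by rw [← mul_assoc, mul_inv_cancel₀ ht, one_mul]
    calc t ^ N * MvPolynomial.aeval (fun i => t⁻¹ * y i) p * y i
        = t ^ N * MvPolynomial.aeval (fun i => t⁻¹ * y i) p * (t * (t⁻¹ * y i)) := by rw [h1]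
      _ = _ := by ring

/-- **a Cayley transform with algebraically independent parameters is generic** -/
theorem PG_cay {k : Subfield ℝ} {A₀ : Matrix (Fin d) (Fin d) ℝ} (hAk : ∀ i j, A₀ i j ∈ k)
    (hA : A₀ * A₀ᵀ = 1) {s : Ix d → ℝ} (hs : AlgebraicIndependent k s) :
    PG k (cay A₀ (skew s)) := by
  classical
  refine ⟨cay_orth hA (skew_transpose s), fun p hp C hC hdet => ?_⟩
  rw [cay_det (skew_transpose s)] at hdet
  -- the polynomial over `k`
  obtain ⟨N, q, hq⟩ := exists_homog p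
  let A₀k : Matrix (Fin d) (Fin d) k := fun i j => ⟨A₀ i j, hAk i j⟩
  let T : Matrix (Fin d) (Fin d) (MvPolynomial (Ix d) k) := skew MvPolynomial.X
  let A₀p : Matrix (Fin d) (Fin d) (MvPolynomial (Ix d) k) := A₀k.map MvPolynomial.C
  let r : MvPolynomial (Ix d) k := MvPolynomial.aeval
    (fun o : Option (Fin d × Fin d) => o.elim (1 + T).det fun ij => cayN A₀p T ij.1 ij.2) q
  have hr : ∀ s' : Ix d → ℝ, MvPolynomial.aeval s' r =
      ((1 + skew s').det) ^ N * ev p (cay A₀ (skew s')) := by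
    intro s'
    let φ : MvPolynomial (Ix d) k →+* ℝ :=
      (MvPolynomial.aeval s' : MvPolynomial (Ix d) k →ₐ[k] ℝ).toRingHom
    have hT : T.map φ = skew s' := by
      rw [skew_map]
      congr 1
      ext i
      exact MvPolynomial.aeval_X _ _
    have hA₀ : A₀p.map φ = A₀ := by
      ext i j
      change MvPolynomial.aeval s' (MvPolynomial.C (A₀k i j)) = _
      rw [MvPolynomial.aeval_C]
      rfl
    have h1 : φ (1 + T).det = (1 + skew s').det := by
      rw [RingHom.map_det]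
      congr 1
      rw [map_add, map_one]
      congr 1
    have h2 : ∀ i j, φ (cayN A₀p T i j) = cayN A₀ (skew s') i j := by
      intro i j
      have h3 : φ.mapMatrix (cayN A₀p T) = cayN A₀ (skew s') := by
        rw [cayN, map_mul, map_mul, RingHom.map_adjugate, map_sub, map_add, map_one]
        have e1 : φ.mapMatrix A₀p = A₀ := hA₀
        have e2 : φ.mapMatrix T = skew s' := hT
        rw [e1, e2]
        rfl
      exact congrFun (congrFun h3 i) j
    have h4 : MvPolynomial.aeval s' r = MvPolynomial.aeval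
        (fun o : Option (Fin d × Fin d) => o.elim (1 + skew s').det
          fun ij => cayN A₀ (skew s') ij.1 ij.2) q := by
      change (MvPolynomial.aeval s') (MvPolynomial.aeval _ q) = _
      rw [← AlgHom.comp_apply, MvPolynomial.comp_aeval]
      congr 2
      ext o
      cases o with
      | none => exact h1
      | some ij => exact h2 ij.1 ij.2
    rw [h4, hq _ _ (det_one_add_ne (skew_transpose s'))]
    rfl
  have hr0 : r = 0 := by
    apply hs.eq_zero_of_aeval_eq_zero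
    rw [hr s, hp, mul_zero]
  have hchart : ∀ S : Matrix (Fin d) (Fin d) ℝ, Sᵀ = -S → ev p (cay A₀ S) = 0 := by
    intro S hS
    rw [skew_surj S hS]
    have h1 := hr fun ij : Ix d => S ij.1.1 ij.1.2
    rw [hr0, map_zero] at h1
    rcases mul_eq_zero.1 h1.symm with h2 | h2
    · exact absurd h2 (pow_ne_zero _ (det_one_add_ne (skew_transpose _)))
    · exact h2
  -- irreducibility
  by_contra hne
  have hg : ∀ M : ℝ → Matrix (Fin d) (Fin d) ℝ, AnM M →
      AnalyticOnNhd ℝ (fun t => (A₀ + M t).det) Set.univ := by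
    intro M hM
    have h1 : (fun t => (A₀ + M t).det) = fun t =>
        ∑ σ : Equiv.Perm (Fin d), (Equiv.Perm.sign σ : ℤ) • ∏ i, (A₀ + M t) (σ i) i := by
      ext t
      rw [Matrix.det_apply]
      rfl
    rw [h1]
    refine Finset.analyticOnNhd_fun_sum _ fun σ _ => ?_
    have h2 : AnalyticOnNhd ℝ (fun t => ∏ i, (A₀ + M t) (σ i) i) Set.univ := by
      refine Finset.analyticOnNhd_fun_prod _ fun i _ => ?_
      simp only [Matrix.add_apply]
      exact analyticOnNhd_const.add (hM _ _)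
    simp only [zsmul_eq_mul]
    exact analyticOnNhd_const.mul h2
  have hdA : (A₀ + A₀).det ≠ 0 := by
    rw [← two_smul ℝ A₀, det_smul]
    rcases det_orth hA with h | h <;> rw [h] <;> simp
  obtain ⟨D, hD1, hD2, hD3, hD4⟩ := irr_fun (f := fun M => ev p M) (g := fun M => (A₀ + M).det)
    (fun M hM => analytic_ev p hM) hg hC hA hdet hne hdA
  obtain ⟨S, hS, hSD⟩ := exists_cay hA hD1 hD4
  apply hD3
  rw [← hSD]
  exact hchart S hS

end Vale.Agent.P054.T2.H588
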