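import Vale.Agent.P054.T2.H588.Main
import Vale.Agent.P054.T2.H192.Tree
import Vale.Agent.P054.T2.H269.S1

set_option autoImplicit false
set_option linter.all false

/-! Generic isometries in the coordinates of H686 (`zt B`): zeta is injective on every good
subspace defined over `k`; on a maximal isotropic subspace of the wrong type the kernel is a line
spanned by a generic point. -/

namespace Vale.Agent.P054.T2.H588

open Matrix Module

section basis

variable {d : ℕ}

/-- matrices of the two components of a family of pairs -/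
def X1 {m : ℕ} (f : Fin m → PV d) : Matrix (Fin d) (Fin m) ℝ := fun i j => (f j).1 i

def X2 {m : ℕ} (f : Fin m → PV d) : Matrix (Fin d) (Fin m) ℝ := fun i j => (f j).2 i

theorem sum_smul_eq {m : ℕ} (f : Fin m → PV d) (w : Fin m → ℝ) :
    (∑ i, w i • f i) = (X1 f *ᵥ w, X2 f *ᵥ w) := by
  ext i
  · simp [Prod.fst_sum, Matrix.mulVec, dotProduct, X1, mul_comm]
  · simp [Prod.snd_sum, Matrix.mulVec, dotProduct, X2, mul_comm]

theorem Qv_add (s r : PV d) : Qv (s + r) = Qv s + Qv r + 2 * (s.1 ⬝ᵥ r.1 - s.2 ⬝ᵥ r.2) := by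
  simp only [Qv, Prod.fst_add, Prod.snd_add, add_dotProduct, dotProduct_add]
  rw [dotProduct_comm r.1 s.1, dotProduct_comm r.2 s.2]
  ring

/-- a basis over `k` of an isotropic subspace of dimension `d`: the second components form an
invertible matrix and the subspace is the graph of an orthogonal matrix over `k` -/
theorem exists_graph {k : Subfield ℝ} (f : Fin d → PV d) (hf : ∀ i, InK k (f i))
    (hlin : LinearIndependent ℝ f)
    (hiso : ∀ s ∈ Submodule.span ℝ (Set.range f), Qv s = 0) :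
    ∃ h Y : Matrix (Fin d) (Fin d) ℝ, (∀ i j, h i j ∈ k) ∧ (∀ i j, Y i j ∈ k) ∧ h * hᵀ = 1 ∧
      Y * X2 f = 1 ∧ X2 f * Y = 1 ∧ X1 f = h * X2 f := by
  classical
  have hmem : ∀ w : Fin d → ℝ, (X1 f *ᵥ w, X2 f *ᵥ w) ∈ Submodule.span ℝ (Set.range f) := by
    intro w
    rw [← sum_smul_eq]
    exact Submodule.sum_mem _ fun i _ => Submodule.smul_mem _ _ (Submodule.subset_span ⟨i, rfl⟩)
  -- polarisation
  have hpol : ∀ s ∈ Submodule.span ℝ (Set.range f), ∀ r ∈ Submodule.span ℝ (Set.range f),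
      s.1 ⬝ᵥ r.1 = s.2 ⬝ᵥ r.2 := by
    intro s hs r hr
    have h1 := hiso _ (Submodule.add_mem _ hs hr)
    rw [Qv_add, hiso s hs, hiso r hr] at h1
    linarith
  have hinj : ∀ w : Fin d → ℝ, X2 f *ᵥ w = 0 → w = 0 := by
    intro w hw
    have h1 := hiso _ (hmem w)
    simp only [Qv, hw, dotProduct_zero, sub_zero] at h1
    have h2 : X1 f *ᵥ w = 0 := dotProduct_self_eq_zero.1 h1
    have h3 : (∑ i, w i • f i) = 0 := by rw [sum_smul_eq, hw, h2]; rfl
    ext i
    exact Fintype.linearIndependent_iff.1 hlin w h3 i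
  have hdet : (X2 f).det ≠ 0 := by
    intro h0
    obtain ⟨w, hw, hw0⟩ := Matrix.exists_mulVec_eq_zero_iff.2 h0
    exact hw (hinj w hw0)
  have hu : IsUnit (X2 f).det := hdet.isUnit
  -- the inverse has entries in `k`
  let Xk : Matrix (Fin d) (Fin d) k := fun i j => ⟨(f j).2 i, (hf j).2 i⟩
  have hXk : Xk.map (algebraMap k ℝ) = X2 f := rfl
  have hdk : Xk.det ≠ 0 := by
    intro h0
    apply hdet
    rw [← hXk, ← RingHom.mapMatrix_apply, ← RingHom.map_det, h0, map_zero]
  have hinvk : (Xk⁻¹).map (algebraMap k ℝ) = (X2 f)⁻¹ := by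
    have h1 : (Xk⁻¹).map (algebraMap k ℝ) * X2 f = 1 := by
      rw [← hXk, ← RingHom.mapMatrix_apply, ← RingHom.mapMatrix_apply, ← map_mul,
        Matrix.nonsing_inv_mul _ hdk.isUnit, map_one]
    exact (Matrix.inv_eq_left_inv h1).symm
  have hYk : ∀ i j, (X2 f)⁻¹ i j ∈ k := by
    intro i j
    rw [← hinvk]
    exact (Xk⁻¹ i j).2
  refine ⟨X1 f * (X2 f)⁻¹, (X2 f)⁻¹, ?_, hYk, ?_, Matrix.nonsing_inv_mul _ hu,
    Matrix.mul_nonsing_inv _ hu, ?_⟩
  · intro i j
    rw [Matrix.mul_apply]
    exact k.sum_mem fun l _ => k.mul_mem ((hf l).1 i) (hYk l j)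
  · apply mul_eq_one_comm.1
    rw [transpose_mul]
    have h1 : (X1 f)ᵀ * X1 f = (X2 f)ᵀ * X2 f := by
      ext i j
      rw [Matrix.mul_apply, Matrix.mul_apply]
      exact hpol (f i) (Submodule.subset_span ⟨i, rfl⟩) (f j) (Submodule.subset_span ⟨j, rfl⟩)
    calc ((X2 f)⁻¹)ᵀ * (X1 f)ᵀ * (X1 f * (X2 f)⁻¹)
        = ((X2 f)⁻¹)ᵀ * ((X1 f)ᵀ * X1 f) * (X2 f)⁻¹ := by simp only [Matrix.mul_assoc]
      _ = ((X2 f)⁻¹)ᵀ * (X2 f)ᵀ * (X2 f * (X2 f)⁻¹) := by rw [h1]; simp only [Matrix.mul_assoc]
      _ = 1 := by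
        rw [Matrix.mul_nonsing_inv _ hu, ← transpose_mul, Matrix.mul_nonsing_inv _ hu]
        simp
  · rw [Matrix.mul_assoc, Matrix.nonsing_inv_mul _ hu, Matrix.mul_one]

/-- **dichotomy for isotropic subspaces of dimension `d` with a basis over `k`**: either zeta is
injective, or its kernel is a line whose coordinate vector is generic over `k` -/
theorem iso_dichotomy {k : Subfield ℝ} {B : Matrix (Fin d) (Fin d) ℝ} (hB : PG k B)
    (f : Fin d → PV d) (hf : ∀ i, InK k (f i)) (hlin : LinearIndependent ℝ f)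
    (hiso : ∀ s ∈ Submodule.span ℝ (Set.range f), Qv s = 0) :
    (∀ b : Fin d → ℝ, zmap B (∑ i, b i • f i) = 0 → b = 0) ∨
    ∃ a : Fin d → ℝ, a ≠ 0 ∧ zmap B (∑ i, a i • f i) = 0 ∧
      (∀ b : Fin d → ℝ, zmap B (∑ i, b i • f i) = 0 → ∃ c : ℝ, b = c • a) ∧
      ∀ (G : MvPolynomial (Fin d) k) (e : ℕ), G.IsHomogeneous e → G ≠ 0 →
        MvPolynomial.aeval a G ≠ 0 := by
  classical
  obtain ⟨h, Y, hk, hYk, hh1, hY1, hY2, hX⟩ := exists_graph f hf hlin hiso
  have hz : ∀ b : Fin d → ℝ, zmap B (∑ i, b i • f i) = 0 ↔ h *ᵥ (X2 f *ᵥ b) = B *ᵥ (X2 f *ᵥ b) := by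
    intro b
    rw [sum_smul_eq, zmap_apply, hX, ← mulVec_mulVec, sub_eq_zero]
  have hb : ∀ b : Fin d → ℝ, Y *ᵥ (X2 f *ᵥ b) = b := by
    intro b
    rw [mulVec_mulVec, hY1, one_mulVec]
  have hb' : ∀ x : Fin d → ℝ, X2 f *ᵥ (Y *ᵥ x) = x := by
    intro x
    rw [mulVec_mulVec, hY2, one_mulVec]
  by_cases htype : B.det = (-1) ^ d * h.det
  · left
    intro b hb0
    rw [hz] at hb0
    have h1 := A2 hB hk hh1 htype hb0
    rw [← hb b, h1, mulVec_zero]
  · right
    have hdet' : B.det = (-1) ^ d * h.det ∨ B.det = -((-1) ^ d * h.det) := by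
      have e1 := det_orth hB.1
      have e2 := det_orth hh1
      have e3 : ((-1 : ℝ) ^ d) = 1 ∨ ((-1 : ℝ) ^ d) = -1 := neg_one_pow_eq_or ℝ d
      rcases e1 with e1 | e1 <;> rcases e2 with e2 | e2 <;> rcases e3 with e3 | e3 <;>
        rw [e1, e2, e3] <;> norm_num
    have hdet := hdet'.resolve_left htype
    obtain ⟨x, hx0, hx1, hx2, hx3⟩ := A3 hB hk hh1 hdet
    refine ⟨Y *ᵥ x, ?_, ?_, ?_, ?_⟩
    · intro h0
      apply hx0
      rw [← hb' x, h0, mulVec_zero]
    · rw [hz, hb', hx1]
    · intro b hb0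
      rw [hz] at hb0
      obtain ⟨c, hc⟩ := hx2 _ hb0
      refine ⟨c, ?_⟩
      rw [← hb b, hc, mulVec_smul]
    · intro G e hG hG0 hzero
      -- substitute
      let Yk : Matrix (Fin d) (Fin d) k := fun i j => ⟨Y i j, hYk i j⟩
      let Xk : Matrix (Fin d) (Fin d) k := fun i j => ⟨X2 f i j, (hf j).2 i⟩
      let g : Fin d → MvPolynomial (Fin d) k := fun i =>
        ∑ j, MvPolynomial.C (Yk i j) * MvPolynomial.X j
      let g' : Fin d → MvPolynomial (Fin d) k := fun i =>
        ∑ j, MvPolynomial.C (Xk i j) * MvPolynomial.X j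
      have hghom : ∀ i, (g i).IsHomogeneous 1 := by
        intro i
        refine MvPolynomial.IsHomogeneous.sum _ _ _ fun j _ => ?_
        have := (MvPolynomial.isHomogeneous_C (Fin d) (Yk i j)).mul
          (MvPolynomial.isHomogeneous_X k j)
        simpa using this
      have h1 : (MvPolynomial.bind₁ g G).IsHomogeneous e := by
        have := hG.aeval g hghom
        simpa using this
      have h2 : MvPolynomial.aeval x (MvPolynomial.bind₁ g G) = MvPolynomial.aeval (Y *ᵥ x) G := by
        rw [MvPolynomial.aeval_bind₁]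
        congr 2
        ext i
        simp only [g, map_sum, map_mul, MvPolynomial.aeval_C, MvPolynomial.aeval_X]
        rfl
      have h3 : MvPolynomial.bind₁ g G ≠ 0 := by
        intro h0
        apply hG0
        have h4 : MvPolynomial.bind₁ g' (MvPolynomial.bind₁ g G) = G := by
          rw [MvPolynomial.bind₁_bind₁]
          have h5 : (fun i => MvPolynomial.bind₁ g' (g i)) = MvPolynomial.X := by
            ext1 i
            have hYX : ∀ i l, ∑ j, Yk i j * Xk j l = if i = l then 1 else 0 := by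
              intro i l
              apply (algebraMap k ℝ).injective
              rw [map_sum]
              have h6 := congrFun (congrFun hY1 i) l
              rw [Matrix.mul_apply, Matrix.one_apply] at h6
              rw [apply_ite (algebraMap k ℝ), map_one, map_zero, ← h6]
              rfl
            simp only [g, g', map_sum, map_mul, MvPolynomial.bind₁_C_right,
              MvPolynomial.bind₁_X_right, Finset.mul_sum]
            rw [Finset.sum_comm]
            have h7 : ∀ l, ∑ j, MvPolynomial.C (Yk i j) * (MvPolynomial.C (Xk j l) *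
                (MvPolynomial.X l : MvPolynomial (Fin d) k)) =
                MvPolynomial.C (∑ j, Yk i j * Xk j l) * MvPolynomial.X l := by
              intro l
              rw [map_sum, Finset.sum_mul]
              refine Finset.sum_congr rfl fun j _ => ?_
              rw [map_mul, mul_assoc]
            simp only [h7, hYX]
            rw [Finset.sum_eq_single i]
            · simp
            · intro b _ hb
              rw [if_neg (fun h => hb h.symm), map_zero, zero_mul]
            · simp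
          rw [h5, MvPolynomial.bind₁_X_left]
          rfl
        rw [← h4, h0, map_zero]
      exact hx3 _ e h1 h3 (by rw [h2]; exact hzero)

end basis

end Vale.Agent.P054.T2.H588
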