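import Mathlib

set_option autoImplicit false
set_option linter.all false

/-! The counting frame: properties which hold off a small set of edges. -/

namespace Vale.Agent.P054.T2.H588

open Finset

variable {ι : Type*}

/-- `p` holds on `E'` off a set of at most `m * |E'| / 64` elements -/
def Off (m : ℕ) (E' : Finset ι) (p : ι → Prop) : Prop :=
  ∃ Y : Finset ι, 64 * Y.card ≤ m * E'.card ∧ ∀ e ∈ E', ¬ p e → e ∈ Y

theorem Off.of_forall {E' : Finset ι} {p : ι → Prop} (h : ∀ e ∈ E', p e) (m : ℕ) :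
    Off m E' p :=
  ⟨∅, by simp, fun e he hp => absurd (h e he) hp⟩

theorem Off.mono {m : ℕ} {E' : Finset ι} {p r : ι → Prop} (h : Off m E' p)
    (hpr : ∀ e ∈ E', p e → r e) : Off m E' r := by
  obtain ⟨Y, h1, h2⟩ := h
  exact ⟨Y, h1, fun e he hr => h2 e he fun hp => hr (hpr e he hp)⟩

theorem Off.le {m m' : ℕ} {E' : Finset ι} {p : ι → Prop} (h : Off m E' p) (hm : m ≤ m') :
    Off m' E' p := by
  obtain ⟨Y, h1, h2⟩ := h
  exact ⟨Y, h1.trans (Nat.mul_le_mul_right _ hm), h2⟩

theorem Off.and {m m' : ℕ} {E' : Finset ι} {p r : ι → Prop} (h : Off m E' p)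
    (h' : Off m' E' r) : Off (m + m') E' fun e => p e ∧ r e := by
  classical
  obtain ⟨Y, h1, h2⟩ := h
  obtain ⟨Y', h1', h2'⟩ := h'
  refine ⟨Y ∪ Y', ?_, ?_⟩
  · have h3 := Finset.card_union_le Y Y'
    nlinarith
  · intro e he h3
    by_cases hp : p e
    · exact Finset.mem_union_right _ (h2' e he fun hr => h3 ⟨hp, hr⟩)
    · exact Finset.mem_union_left _ (h2 e he hp)

/-- the complement of a small set -/
theorem Off.of_notMem {E' Y : Finset ι} (h : 64 * Y.card ≤ E'.card) :
    Off 1 E' fun e => e ∉ Y :=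
  ⟨Y, by rwa [one_mul], fun _ _ h1 => not_not.1 h1⟩

/-- a large subset -/
theorem Off.of_mem {E' E1 : Finset ι} [DecidableEq ι] (h : 64 * (E' \ E1).card ≤ E'.card) :
    Off 1 E' fun e => e ∈ E1 :=
  ⟨E' \ E1, by rwa [one_mul], fun _ he h1 => Finset.mem_sdiff.2 ⟨he, h1⟩⟩

/-- a property which fails on `A` only at few elements -/
theorem Off.of_subset {E' A : Finset ι} {p : ι → Prop} {Y : Finset ι}
    (h : 64 * Y.card ≤ E'.card) (hY : ∀ e ∈ A, ¬ p e → e ∈ Y) :
    Off 1 E' fun e => e ∈ A → p e :=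
  ⟨Y, by rwa [one_mul], fun e _ h1 => by
    by_cases he : e ∈ A
    · exact hY e he fun hp => h1 fun _ => hp
    · exact absurd (fun h => absurd h he) h1⟩

/-- the set of all elements of `A` with `¬ p` is small: the form of the [G*] leaves -/
theorem Off.of_forall_subset {E' A : Finset ι} {p : ι → Prop}
    (h : ∀ Y ⊆ A, (∀ e ∈ Y, ¬ p e) → 64 * Y.card ≤ E'.card) :
    Off 1 E' fun e => e ∈ A → p e := by
  classical
  exact Off.of_subset (h (A.filter fun e => ¬ p e) (Finset.filter_subset _ _)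
    fun e he => (Finset.mem_filter.1 he).2) fun e he hp => Finset.mem_filter.2 ⟨he, hp⟩

theorem Off.imp {m m' : ℕ} {E' : Finset ι} {p r : ι → Prop} (h : Off m E' p)
    (h' : Off m' E' fun e => p e → r e) : Off (m + m') E' fun e => p e ∧ r e :=
  (h.and h').mono fun _ _ h1 => ⟨h1.1, h1.2 h1.1⟩

/-- finitely many properties at once -/
theorem Off.forall {κ : Type*} [Fintype κ] {m : ℕ} {E' : Finset ι} {p : κ → ι → Prop}
    (h : ∀ i, Off m E' (p i)) : Off (Fintype.card κ * m) E' fun e => ∀ i, p i e := by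
  classical
  choose Y h1 h2 using h
  refine ⟨Finset.univ.biUnion Y, ?_, ?_⟩
  · calc 64 * (Finset.univ.biUnion Y).card ≤ 64 * ∑ i : κ, (Y i).card :=
          Nat.mul_le_mul_left _ Finset.card_biUnion_le
      _ = ∑ i : κ, 64 * (Y i).card := Finset.mul_sum _ _ _
      _ ≤ ∑ _i : κ, m * E'.card := Finset.sum_le_sum fun i _ => h1 i
      _ = Fintype.card κ * m * E'.card := by
          rw [Finset.sum_const, Finset.card_univ, smul_eq_mul, mul_assoc]
  · intro e he h3
    obtain ⟨i, hi⟩ := not_forall.1 h3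
    exact Finset.mem_biUnion.2 ⟨i, Finset.mem_univ i, h2 i e he hi⟩

/-- the number of exceptions inside `E'` -/
theorem Off.card_le {m : ℕ} {E' : Finset ι} {p : ι → Prop} [DecidablePred fun e => ¬ p e]
    (h : Off m E' p) :
    64 * (E'.filter fun e => ¬ p e).card ≤ m * E'.card := by
  obtain ⟨Y, h1, h2⟩ := h
  refine le_trans (Nat.mul_le_mul_left _ (Finset.card_le_card ?_)) h1
  intro e he
  obtain ⟨he1, he2⟩ := Finset.mem_filter.1 he
  exact h2 e he1 he2

/-- **the good set**: at least half of `E'` -/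
theorem Off.exists_good {m : ℕ} {E' : Finset ι} {p : ι → Prop} (h : Off m E' p) (hm : m ≤ 32) :
    ∃ Eg ⊆ E', E'.card ≤ 2 * Eg.card ∧ (∀ e, e ∈ Eg ↔ e ∈ E' ∧ p e) ∧
      (E'.Nonempty → Eg.Nonempty) := by
  classical
  have h0 : 64 * (E'.filter fun e => ¬ p e).card ≤ m * E'.card := h.card_le
  have h1 := Finset.card_filter_add_card_filter_not (s := E') (p := p)
  have h3 : E'.card ≤ 2 * (E'.filter p).card := by
    nlinarith
  refine ⟨E'.filter p, Finset.filter_subset _ _, h3, fun e => Finset.mem_filter, ?_⟩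
  intro hne
  have h2 := Finset.card_pos.2 hne
  rw [← Finset.card_pos]
  omega

/-- the same for one family of exceptional sets -/
theorem exists_good_of_sets {κ : Type*} [Fintype κ] (hκ : Fintype.card κ ≤ 32) {E' : Finset ι}
    (Y : κ → Finset ι) (hY : ∀ i, 64 * (Y i).card ≤ E'.card) :
    ∃ Eg ⊆ E', E'.card ≤ 2 * Eg.card ∧ (∀ e, e ∈ Eg ↔ e ∈ E' ∧ ∀ i, e ∉ Y i) ∧
      (E'.Nonempty → Eg.Nonempty) :=
  (Off.forall fun i => Off.of_notMem (hY i)).exists_good (by omega)

/-- a subset obtained from `E'` by removing few elements is dense -/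
theorem Off.dense {m : ℕ} {E' A : Finset ι} (h : Off m E' fun e => e ∈ A) (hm : m ≤ 32) :
    E'.card ≤ 2 * A.card := by
  classical
  obtain ⟨Eg, -, h1, h2, -⟩ := h.exists_good hm
  refine h1.trans (Nat.mul_le_mul_left _ (Finset.card_le_card ?_))
  intro e he
  exact ((h2 e).1 he).2

end Vale.Agent.P054.T2.H588
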