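import Vale.Agent.P054.T2.H588.GenU
import Vale.Agent.P054.T2.H428.EdgeB
import Vale.Agent.P054.T2.H82.WTSide
import Vale.Agent.P054.T2.H441.Lin

set_option autoImplicit false
set_option linter.all false

/-! [EDGES]: the fields of `EdgeS` from the genericity of the rotation and the stability of the
prime of `r` under the coefficientwise derivations; [SIGW]. -/

namespace Vale.Agent.P054.T2.H588

open Matrix Module MvPolynomial
open Vale.Agent.P054.T2.H441 Vale.Agent.P054.T2.SecC Vale.Agent.P054.T2.H431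
open Vale.Agent.P054.T2.H930 (germ grad germ_isPrime eval_eq_zero_of_mem_germ
  grad_mem_of_mem_germ)
open Vale.Agent.P054.T2.H192 (Iso)
open Vale.Agent.P054.T2.H686 (Qf Bf zt E mu)

variable {n : ℕ}

/-- a subspace which is not mapped injectively by `ζ` and has dimension `n + 1` is killed by a
non-zero functional of `ζ` -/
theorem exists_mu {U : Submodule ℝ (ZZ n)} (hfin : finrank ℝ U = n + 1) {n₀ : ZZ n}
    (hn₀ : n₀ ∈ U) (hne : n₀ ≠ 0) (h0 : n₀.1 = 0) :
    ∃ m : (Fin (n + 1) → ℝ) →ₗ[ℝ] ℝ, m ≠ 0 ∧ ∀ x ∈ U, m x.1 = 0 := by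
  set Z : Submodule ℝ (Fin (n + 1) → ℝ) := U.map (LinearMap.fst ℝ _ _) with hZ
  have h1 : Z ≠ ⊤ := by
    intro htop
    have h2 : finrank ℝ Z = n + 1 := by
      rw [htop, finrank_top, finrank_fin_fun]
    let g : U →ₗ[ℝ] Z := (LinearMap.fst ℝ (Fin (n + 1) → ℝ) (Fin (n + 1) → ℝ)).restrict
      (fun x hx => Submodule.mem_map_of_mem hx)
    have hsurj : Function.Surjective g := by
      rintro ⟨y, hy⟩
      obtain ⟨x, hx, rfl⟩ := hy
      exact ⟨⟨x, hx⟩, rfl⟩
    have hinj : Function.Injective g :=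
      (LinearMap.injective_iff_surjective_of_finrank_eq_finrank (by rw [hfin, h2])).2 hsurj
    have h3 : g ⟨n₀, hn₀⟩ = g 0 := by
      rw [map_zero]
      exact Subtype.ext h0
    exact hne (congrArg Subtype.val (hinj h3))
  obtain ⟨m, hm, hmZ⟩ := Submodule.exists_le_ker_of_lt_top Z (lt_top_iff_ne_top.2 h1)
  exact ⟨m, hm, fun x hx => hmZ (Submodule.mem_map_of_mem hx)⟩

variable {A : Finset (ZZ n × ZZ n)} {W D σ v : ℕ}

/-- **[SIGW]** wrong type forces `σ + 2 ≤ n + 1` -/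
theorem sig_wrong (S : Side n A W D σ v) {e : ZZ n × ZZ n} (he : e ∈ A)
    {U : Submodule ℝ (ZZ n)} (hVU : S.V e ≤ U) (hw : e.1 - e.2 ∈ U)
    (hfin : finrank ℝ U = n + 1) {n₀ : ZZ n} (hn₀ : n₀ ∈ U) (hne : n₀ ≠ 0) (h0 : n₀.1 = 0) :
    σ + 2 ≤ n + 1 := by
  classical
  by_contra hσ
  have hσn : n - σ = 0 := by omega
  obtain ⟨m, hm, hmU⟩ := exists_mu hfin hn₀ hne h0
  apply hm
  have hP : (S.P e).IsPrime := germ_isPrime (S.hzero e he) (S.hind e he)
  set l : ZZ n →ₗ[ℝ] ℝ := m ∘ₗ LinearMap.fst ℝ _ _ with hl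
  have hlm : ∀ x : ZZ n, l x = m x.1 := fun x => rfl
  have h1 : linL l e.2 ∈ S.Pr e := S.linL_mem fun x hx => hmU x (hVU hx)
  have h2 : rename (R := ℝ) Sum.inr (linL l e.2) ∈ S.P e := h1
  have h3 : l e.2 = l e.1 := by
    have := hmU _ hw
    rw [Prod.fst_sub, map_sub, sub_eq_zero] at this
    exact this.symm
  -- the affine function of the leaf
  set g : MvPolynomial (HL n) ℝ := C (m (Pi.single 0 1)) +
    ∑ i : Fin n, C (m (Pi.single i.succ 1)) * X (Sum.inl i) with hg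
  have h4 : rename (R := ℝ) Sum.inr (linL l e.2) =
      g * (X (Sum.inr (Sum.inl 0)) - C (e.1.1 0)) +
        ∑ i : Fin n, C (m (Pi.single i.succ 1)) * incL e.1 i := by
    have h6 : ∀ i, l (0, Pi.single i 1) = 0 := fun i => by rw [hlm]; exact map_zero m
    have h7 : ∀ i, l (Pi.single i 1, 0) = m (Pi.single i 1) := fun i => rfl
    have h5 : l e.1 = ∑ i : Fin (n + 1), m (Pi.single i 1) * e.1.1 i := by
      rw [lin_apply l e.1]
      simp only [h6, h7, zero_mul, Finset.sum_const_zero, add_zero]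
    unfold linL
    rw [h3, h5]
    simp only [h6, h7, map_zero, zero_mul, Finset.sum_const_zero, add_zero, map_sub, map_sum,
      map_mul, rename_C, rename_X]
    rw [Fin.sum_univ_succ, Fin.sum_univ_succ, hg]
    unfold incL
    simp only [mul_sub, add_mul, Finset.sum_mul, Finset.sum_sub_distrib, mul_assoc]
    ring
  have h5 : g * (X (Sum.inr (Sum.inl 0)) - C (e.1.1 0)) ∈ S.P e := by
    rw [h4] at h2
    refine (Ideal.add_mem_iff_left _ ?_).1 h2
    exact Ideal.sum_mem _ fun i _ => Ideal.mul_mem_left _ _ (S.hinc e he i)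
  have h6 : (X (Sum.inr (Sum.inl 0)) - C (e.1.1 0) : MvPolynomial (HL n) ℝ) ∉ S.P e := by
    intro h
    have h7 := eval_eq_zero_of_mem_germ (S.hzero e he) h
    rw [map_sub, eval_X, eval_C] at h7
    exact S.hne e he (sub_eq_zero.1 h7).symm
  have h7 : g ∈ S.P e := (hP.mem_or_mem h5).resolve_right h6
  have h8 := grad_mem_of_mem_germ (S.hzero e he) h7
  obtain ⟨c, hc⟩ := (Submodule.mem_span_range_iff_exists_fun ℝ).1 h8
  rw [Fin.sum_univ_add] at hc
  have h9 : ∀ i : Fin (n - σ), False := fun i => by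
    have := i.2
    omega
  have h10 : (∑ i : Fin (n - σ), c (Fin.castAdd _ i) •
      grad (hx e.1 e.2) (S.F e.1 (Fin.castAdd _ i))) = 0 :=
    Finset.sum_eq_zero fun i _ => (h9 i).elim
  rw [h10, zero_add] at hc
  have hgr : ∀ z : ZI n, grad (hx e.1 e.2) g (Sum.inr z) = 0 := by
    intro z
    unfold grad
    rw [hg, map_add, map_sum, pderiv_C, zero_add, map_sum]
    refine Finset.sum_eq_zero fun i _ => ?_
    rw [pderiv_C_mul, pderiv_X_of_ne (by simp)]
    simp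
  have h11 : ∀ j, c (Fin.natAdd _ j) = 0 := by
    have h12 := Fintype.linearIndependent_iff.1 (S.hindr e he) (fun j => c (Fin.natAdd _ j)) (by
      funext z
      have h13 := congrFun hc (Sum.inr z)
      rw [hgr] at h13
      rw [Finset.sum_apply] at h13 ⊢
      exact h13)
    exact h12
  have h12 : grad (hx e.1 e.2) g = 0 := by
    rw [← hc]
    refine Finset.sum_eq_zero fun j _ => ?_
    rw [h11 j, zero_smul]
  have h13 : ∀ i : Fin n, m (Pi.single i.succ 1) = 0 := by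
    intro i
    have h14 := congrFun h12 (Sum.inl i)
    unfold grad at h14
    rw [hg, map_add, map_sum, pderiv_C, zero_add, map_sum] at h14
    rw [Finset.sum_eq_single i] at h14
    · rw [pderiv_C_mul, pderiv_X_self] at h14
      simpa using h14
    · intro j _ hj
      rw [pderiv_C_mul, pderiv_X_of_ne (by simpa using hj)]
      simp
    · intro h; exact absurd (Finset.mem_univ i) h
  have h14 : m (Pi.single 0 1) = 0 := by
    have h15 := eval_eq_zero_of_mem_germ (S.hzero e he) h7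
    rw [hg, map_add, eval_C, map_sum] at h15
    rw [Finset.sum_eq_zero (fun i _ => by rw [h13 i]; simp), add_zero] at h15
    exact h15
  refine LinearMap.pi_ext' fun i => LinearMap.ext_ring ?_
  simp only [LinearMap.comp_apply, LinearMap.coe_single, LinearMap.zero_apply]
  refine Fin.cases ?_ (fun j => ?_) i
  · exact h14
  · exact h13 j

section

variable {k : Type*} [CommRing k] [Algebra k ℝ]

/-- [GENW] in the form of `GenW` -/
theorem genW_def (hn : 1 ≤ n) {M : Matrix (Fin (n + 1)) (Fin (n + 1)) ℝ}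
    (hM : PG (constF k ℝ) M) {U : Submodule ℝ (ZZ n)} (hU : OverK (constF k ℝ) M U)
    (Pr : Ideal (MvPolynomial (ZI n) ℝ)) {v : ℕ} {s' : ZZ n} (hs' : InK (constF k ℝ) s')
    (h0 : v = 0 → ∀ n₀ ∈ U, n₀ ≠ 0 → n₀.1 = 0 → Iso U → finrank ℝ U = n + 1 →
      (∀ (D : Derivation k ℝ ℝ) (h : MvPolynomial (ZI n) ℝ), chg M h ∈ Pr →
        chg M (cD D h) ∈ Pr) ∧
      ∃ C₀ σ : ℕ, σ + 2 ≤ n + 1 ∧ ∀ T, Vale.Agent.P054.T2.H441.hF Pr T ≤ C₀ * (T + 1) ^ σ) :
    GenW v Pr (zB M s') U := by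
  intro hiso hfin
  have hs : ∀ (D : Derivation k ℝ ℝ) (j : Fin (n + 1)), D (s'.2 j) = 0 := fun D j =>
    (mem_constF.1 (hs'.2 j)) D
  by_cases hv : v = 0
  · by_cases hz : ZInj U
    · exact Or.inl hz
    · obtain ⟨n₀, h1, h2, h3⟩ : ∃ n₀ ∈ U, n₀.1 = 0 ∧ n₀ ≠ 0 := by
        unfold ZInj at hz
        push Not at hz
        exact hz
      obtain ⟨hstab, C₀, σ, hσ, hP⟩ := h0 hv n₀ h1 h3 h2 hiso hfin
      rcases genW hM hU hiso hfin Pr hstab s' hs hσ hP with h | ⟨m, hm1, hm2, hm3, hm4, D', hD', G,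
        hG1, hG2, hG3⟩
      · exact Or.inl h
      · exact Or.inr ⟨m, hm1, hm2, hm3, hm4, fun _ => ⟨D', G, hD', hG1, hG2, hG3⟩⟩
  · rcases genW (k := k) hM hU hiso hfin (⊤ : Ideal (MvPolynomial (ZI n) ℝ))
      (fun D h _ => Submodule.mem_top) s' hs (C₀ := 0) (σ := 0) (by omega) (fun T => by
        have hsub : Subsingleton (MvPolynomial (ZI n) ℝ ⧸ (⊤ : Ideal (MvPolynomial (ZI n) ℝ))) :=
          Ideal.Quotient.subsingleton_iff.2 rfl
        unfold Vale.Agent.P054.T2.H441.hF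
        rw [Subsingleton.elim (Submodule.map _ _) (⊥ : Submodule ℝ _), finrank_bot]
        exact Nat.zero_le _) with h | ⟨m, hm1, hm2, hm3, hm4, -⟩
    · exact Or.inl h
    · exact Or.inr ⟨m, hm1, hm2, hm3, hm4, fun h => absurd h hv⟩

/-- **[EDGES]**, matrix form: `EdgeS` at one edge -/
theorem edgeS_zB (S : Side n A W D σ v) {e : ZZ n × ZZ n} (he : e ∈ A)
    {M : Matrix (Fin (n + 1)) (Fin (n + 1)) ℝ} (hM : PG (constF k ℝ) M)
    (hV : OverK (constF k ℝ) M (S.V e))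
    (hstab : v = 0 → ∀ (D : Derivation k ℝ ℝ) (h : MvPolynomial (ZI n) ℝ), chg M h ∈ S.Pr e →
      chg M (cD D h) ∈ S.Pr e)
    {s' r' : ZZ n} (hs' : InK (constF k ℝ) s') (hr' : InK (constF k ℝ) r')
    (h1 : zB M s' = e.1) (h2 : zB M r' = e.2) : EdgeS S e := by
  have hn : 1 ≤ n := S.hσ1.trans S.hσ
  have hsr : InK (constF k ℝ) (s' - r') :=
    ⟨fun i => (constF k ℝ).sub_mem (hs'.1 i) (hr'.1 i),
      fun i => (constF k ℝ).sub_mem (hs'.2 i) (hr'.2 i)⟩
  have hw : zB M (s' - r') = e.1 - e.2 := by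
    rw [← h1, ← h2, ← ztL_eq_zB, ← ztL_eq_zB, ← ztL_eq_zB, map_sub]
  have hVw : OverK (constF k ℝ) M (S.V e ⊔ Submodule.span ℝ {e.1 - e.2}) := by
    rw [← hw]
    exact hV.sup_span hsr
  have key : v = 0 → ∃ C₀ : ℕ, ∀ T,
      Vale.Agent.P054.T2.H441.hF (S.Pr e) T ≤ C₀ * (T + 1) ^ σ := by
    intro hv
    subst hv
    exact H82.hF_Pr_le S he
  have main : ∀ U : Submodule ℝ (ZZ n), OverK (constF k ℝ) M U → S.V e ≤ U →
      (Iso U → finrank ℝ U = n + 1 → e.1 - e.2 ∈ U) → GenW v (S.Pr e) e.1 U := by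
    intro U hU hVU hwU
    rw [← h1]
    refine genW_def hn hM hU (S.Pr e) hs' fun hv n₀ hn₀ hne h0 hiso hfin => ⟨hstab hv, ?_⟩
    obtain ⟨C₀, hC₀⟩ := key hv
    exact ⟨C₀, σ, sig_wrong S he hVU (hwU hiso hfin) hfin hn₀ hne h0, hC₀⟩
  refine ⟨fun hd hQ => genI hM hV hd hQ, fun hd hQ => genI hM hVw hd hQ, ?_, ?_⟩
  · refine main _ hV le_rfl fun hiso hfin => ?_
    have h3 := hiso.eq_orth hfin
    rw [h3, H192.mem_orth']
    exact S.iso_perp he hiso
  · refine main _ hVw le_sup_left fun _ _ => ?_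
    exact Submodule.mem_sup_right (Submodule.mem_span_singleton_self _)

/-- **[EDGES]**: `EdgeS` at one edge, from the stability of `S.Pr e` only -/
theorem edgeS_zt (S : Side n A W D σ v) {e : ZZ n × ZZ n} (he : e ∈ A) {B : E n ≃ₗᵢ[ℝ] E n}
    (hB : GI (constF k ℝ) B)
    (hstab : ∀ (D : Derivation k ℝ ℝ) (h : MvPolynomial (ZI n) ℝ), chg (mat B) h ∈ S.Pr e →
      chg (mat B) (cD D h) ∈ S.Pr e)
    {s r : E n × E n} (hs : KK (constF k ℝ) s) (hr : KK (constF k ℝ) r)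
    (h1 : zt B s = e.1) (h2 : zt B r = e.2) : EdgeS S e := by
  have hV : OverK (constF k ℝ) (mat B) (S.V e) := by
    obtain ⟨T, hT, hTV⟩ := dirV_eq_span B (S.Pr e) hstab r hr
    refine ⟨pv '' T, ?_, ?_⟩
    · rintro _ ⟨x, hx, rfl⟩
      exact hT x hx
    · rw [side_V_eq, ← h2, hTV, ← Set.image_comp]
      congr 1
      ext x
      constructor
      · rintro ⟨y, hy, rfl⟩
        exact ⟨y, hy, zB_mat B y⟩
      · rintro ⟨y, hy, rfl⟩
        exact ⟨y, hy, (zB_mat B y).symm⟩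
  exact edgeS_zB S he hB hV (fun _ => hstab) (s' := pv s) (r' := pv r) hs hr
    (by rw [zB_mat, h1]) (by rw [zB_mat, h2])

end

end Vale.Agent.P054.T2.H588
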