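import Vale.Agent.P054.T2.H588.Refl

set_option autoImplicit false
set_option linter.all false

/-! Existence, in each component of the orthogonal group, of a matrix transverse to one subspace. -/

namespace Vale.Agent.P054.T2.H588

open Matrix Module

variable {d : ℕ}

/-- pairs of vectors -/
abbrev PV (d : ℕ) := (Fin d → ℝ) × (Fin d → ℝ)

/-- the quadratic form `|x|² - |x'|²` -/
def Qv (s : PV d) : ℝ := s.1 ⬝ᵥ s.1 - s.2 ⬝ᵥ s.2

/-- `(x, x') ↦ x - B x'` -/
noncomputable def zmap (B : Matrix (Fin d) (Fin d) ℝ) : PV d →ₗ[ℝ] (Fin d → ℝ) :=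
  LinearMap.fst ℝ _ _ - B.mulVecLin ∘ₗ LinearMap.snd ℝ _ _

theorem zmap_apply (B : Matrix (Fin d) (Fin d) ℝ) (s : PV d) : zmap B s = s.1 - B *ᵥ s.2 := rfl

/-- `zmap B` is injective on `V` -/
def Tr (B : Matrix (Fin d) (Fin d) ℝ) (V : Submodule ℝ (PV d)) : Prop :=
  ∀ s ∈ V, s.1 = B *ᵥ s.2 → s = 0

theorem exists_notMem_two {E : Type*} [AddCommGroup E] [Module ℝ E] {I J : Submodule ℝ E}
    (hI : I ≠ ⊤) (hJ : J ≠ ⊤) : ∃ u, u ∉ I ∧ u ∉ J := by
  obtain ⟨a, ha⟩ : ∃ a, a ∉ I := by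
    by_contra h; push Not at h; exact hI (Submodule.eq_top_iff'.2 h)
  obtain ⟨b, hb⟩ : ∃ b, b ∉ J := by
    by_contra h; push Not at h; exact hJ (Submodule.eq_top_iff'.2 h)
  by_cases h1 : a ∈ J
  · by_cases h2 : b ∈ I
    · refine ⟨a + b, fun h => ha ?_, fun h => hb ?_⟩
      · simpa using I.sub_mem h h2
      · simpa using J.sub_mem h h1
    · exact ⟨b, h2, hb⟩
  · exact ⟨a, ha, h1⟩

theorem dot_orth {B : Matrix (Fin d) (Fin d) ℝ} (hB : B * Bᵀ = 1) (y z : Fin d → ℝ) :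
    (B *ᵥ y) ⬝ᵥ (B *ᵥ z) = y ⬝ᵥ z := by
  have hBT : Bᵀ * B = 1 := mul_eq_one_comm.1 hB
  rw [dotProduct_mulVec, vecMul_mulVec, hBT, vecMul_one]

theorem orth_mul {A B : Matrix (Fin d) (Fin d) ℝ} (hA : A * Aᵀ = 1) (hB : B * Bᵀ = 1) :
    (A * B) * (A * B)ᵀ = 1 := by
  rw [transpose_mul]
  calc A * B * (Bᵀ * Aᵀ) = A * (B * Bᵀ) * Aᵀ := by simp only [Matrix.mul_assoc]
    _ = 1 := by rw [hB, Matrix.mul_one, hA]

theorem det_orth {A : Matrix (Fin d) (Fin d) ℝ} (hA : A * Aᵀ = 1) : A.det = 1 ∨ A.det = -1 := by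
  have := congrArg Matrix.det hA
  rw [det_mul, det_transpose, det_one] at this
  exact mul_self_eq_one_iff.1 this

theorem Qv_eq_zero {B : Matrix (Fin d) (Fin d) ℝ} (hB : B * Bᵀ = 1) {s : PV d}
    (hs : s.1 = B *ᵥ s.2) : Qv s = 0 := by
  unfold Qv
  rw [hs, dot_orth hB, sub_self]

theorem zmap_hh (B : Matrix (Fin d) (Fin d) ℝ) (u : Fin d → ℝ) {s : PV d}
    (hs : s.1 = (B * hh u) *ᵥ s.2) :
    zmap B s = (-(2 * (u ⬝ᵥ s.2) / (u ⬝ᵥ u))) • (B *ᵥ u) := by
  rw [zmap_apply, hs, ← mulVec_mulVec, hh_mulVec, mulVec_sub, mulVec_smul]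
  simp

/-- some orthogonal matrix is transverse to `V` -/
theorem exists_tr (V : Submodule ℝ (PV d)) (hV : finrank ℝ V ≤ d) (m : ℕ) :
    ∀ B : Matrix (Fin d) (Fin d) ℝ, B * Bᵀ = 1 →
    finrank ℝ (V ⊓ LinearMap.ker (zmap B) : Submodule ℝ (PV d)) ≤ m →
    ∃ C : Matrix (Fin d) (Fin d) ℝ, C * Cᵀ = 1 ∧ Tr C V := by
  have base : ∀ B : Matrix (Fin d) (Fin d) ℝ, (V ⊓ LinearMap.ker (zmap B) : Submodule ℝ (PV d)) = ⊥ →
      Tr B V := by
    intro B hK s hs h1
    have : s ∈ (V ⊓ LinearMap.ker (zmap B) : Submodule ℝ (PV d)) := by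
      refine ⟨hs, ?_⟩
      change zmap B s = 0
      rw [zmap_apply, h1, sub_self]
    rw [hK] at this
    exact (Submodule.mem_bot ℝ).1 this
  induction m with
  | zero =>
    intro B hB hm
    exact ⟨B, hB, base B (Submodule.finrank_eq_zero.1 (by omega))⟩
  | succ m ih =>
    intro B hB hm
    by_cases hK : (V ⊓ LinearMap.ker (zmap B) : Submodule ℝ (PV d)) = ⊥
    · exact ⟨B, hB, base B hK⟩
    obtain ⟨s₀, hs₀, hne⟩ := Submodule.exists_mem_ne_zero_of_ne_bot hK
    have hBT : Bᵀ * B = 1 := mul_eq_one_comm.1 hB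
    have hs₀1 : s₀.1 = B *ᵥ s₀.2 := by
      have : zmap B s₀ = 0 := hs₀.2
      rw [zmap_apply] at this
      exact sub_eq_zero.1 this
    have hs₀2 : s₀.2 ≠ 0 := by
      intro h
      apply hne
      ext1
      · rw [hs₀1, h, mulVec_zero]; rfl
      · exact h
    -- the image is proper
    have himg : V.map (zmap B) ≠ ⊤ := by
      intro htop
      have h1 := LinearMap.finrank_range_add_finrank_ker ((zmap B).domRestrict V)
      rw [LinearMap.range_domRestrict, htop, finrank_top] at h1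
      simp only [finrank_fintype_fun_eq_card, Fintype.card_fin] at h1
      have h2 : finrank ℝ (LinearMap.ker ((zmap B).domRestrict V)) = 0 := by omega
      rw [Submodule.finrank_eq_zero] at h2
      have h3 : (⟨s₀, hs₀.1⟩ : V) ∈ LinearMap.ker ((zmap B).domRestrict V) := hs₀.2
      rw [h2, Submodule.mem_bot] at h3
      exact hne (congrArg Subtype.val h3)
    have hI : (V.map (zmap B)).comap B.mulVecLin ≠ ⊤ := by
      intro htop
      apply himg
      rw [Submodule.eq_top_iff']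
      intro y
      have h1 : Bᵀ *ᵥ y ∈ (V.map (zmap B)).comap B.mulVecLin := by rw [htop]; trivial
      have h2 : B *ᵥ (Bᵀ *ᵥ y) ∈ V.map (zmap B) := h1
      rwa [mulVec_mulVec, hB, one_mulVec] at h2
    set J : Submodule ℝ (Fin d → ℝ) := LinearMap.ker (dotProductBilin ℝ ℝ s₀.2) with hJdef
    have hJ : J ≠ ⊤ := by
      intro htop
      have h1 : s₀.2 ∈ J := by rw [htop]; trivial
      have h2 : s₀.2 ⬝ᵥ s₀.2 = 0 := h1
      exact hs₀2 (dotProduct_self_eq_zero.1 h2)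
    obtain ⟨u, hu1, hu2⟩ := exists_notMem_two hI hJ
    have hu1' : B *ᵥ u ∉ V.map (zmap B) := hu1
    have hu2' : s₀.2 ⬝ᵥ u ≠ 0 := hu2
    have hu0 : u ≠ 0 := by
      rintro rfl
      exact hu2' (dotProduct_zero _)
    have hsub : ∀ s ∈ V, s.1 = (B * hh u) *ᵥ s.2 → s.1 = B *ᵥ s.2 ∧ u ⬝ᵥ s.2 = 0 := by
      intro s hs h1
      have h2 := zmap_hh B u h1
      have h3 : u ⬝ᵥ s.2 = 0 := by
        by_contra h4
        apply hu1'
        have h5 : -(2 * (u ⬝ᵥ s.2) / (u ⬝ᵥ u)) ≠ 0 :=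
          neg_ne_zero.2 (div_ne_zero (mul_ne_zero two_ne_zero h4) (dot_pos hu0).ne')
        have h6 : B *ᵥ u = (-(2 * (u ⬝ᵥ s.2) / (u ⬝ᵥ u)))⁻¹ • zmap B s := by
          rw [h2, smul_smul, inv_mul_cancel₀ h5, one_smul]
        rw [h6]
        exact Submodule.smul_mem _ _ (Submodule.mem_map_of_mem hs)
      refine ⟨?_, h3⟩
      rw [h3] at h2
      simp only [mul_zero, zero_div, neg_zero, zero_smul] at h2
      rw [zmap_apply] at h2
      exact sub_eq_zero.1 h2
    have hlt : (V ⊓ LinearMap.ker (zmap (B * hh u)) : Submodule ℝ (PV d)) <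
        V ⊓ LinearMap.ker (zmap B) := by
      refine lt_of_le_of_ne ?_ ?_
      · rintro s ⟨hs, hs'⟩
        have h1 : s.1 = (B * hh u) *ᵥ s.2 := by
          have : zmap (B * hh u) s = 0 := hs'
          rw [zmap_apply] at this
          exact sub_eq_zero.1 this
        refine ⟨hs, ?_⟩
        change zmap B s = 0
        rw [zmap_apply, (hsub s hs h1).1, sub_self]
      · intro heq
        have h1 : s₀ ∈ (V ⊓ LinearMap.ker (zmap (B * hh u)) : Submodule ℝ (PV d)) := by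
          rw [heq]; exact hs₀
        have h2 : s₀.1 = (B * hh u) *ᵥ s₀.2 := by
          have : zmap (B * hh u) s₀ = 0 := h1.2
          rw [zmap_apply] at this
          exact sub_eq_zero.1 this
        have h3 := (hsub s₀ hs₀.1 h2).2
        rw [dotProduct_comm] at h3
        exact hu2' h3
    have hfr := Submodule.finrank_lt_finrank_of_lt hlt
    exact ih (B * hh u) (orth_mul hB (hh_orth u)) (by omega)

/-- **(A1), existence**: in each component there is a matrix transverse to `V`, if `dim V < d` or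
`dim V = d` and `V` is not isotropic. -/
theorem exists_tr_det (V : Submodule ℝ (PV d)) (hV : finrank ℝ V ≤ d)
    (hQ : finrank ℝ V < d ∨ ∃ s ∈ V, Qv s ≠ 0)
    (B₀ : Matrix (Fin d) (Fin d) ℝ) (hB₀ : B₀ * B₀ᵀ = 1) :
    ∃ C : Matrix (Fin d) (Fin d) ℝ, C * Cᵀ = 1 ∧ C.det = B₀.det ∧ Tr C V := by
  obtain ⟨C, hC, hT⟩ := exists_tr V hV (finrank ℝ (V ⊓ LinearMap.ker (zmap B₀) : Submodule ℝ (PV d)))
    B₀ hB₀ le_rfl
  by_cases hdet : C.det = B₀.det
  · exact ⟨C, hC, hdet, hT⟩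
  have hdet' : ∀ u : Fin d → ℝ, u ≠ 0 → (C * hh u).det = B₀.det := by
    intro u hu
    rw [det_mul, det_hh hu]
    rcases det_orth hC with h1 | h1 <;> rcases det_orth hB₀ with h2 | h2
    · exact absurd (h1.trans h2.symm) hdet
    · rw [h1, h2]; norm_num
    · rw [h1, h2]; norm_num
    · exact absurd (h1.trans h2.symm) hdet
  have hCT : Cᵀ * C = 1 := mul_eq_one_comm.1 hC
  rcases hQ with hlt | ⟨s₀, hs₀, hQ⟩
  · -- the image is proper
    have himg : V.map (zmap C) ≠ ⊤ := by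
      intro htop
      have h1 := Submodule.finrank_map_le (zmap C) V
      rw [htop, finrank_top] at h1
      simp only [finrank_fintype_fun_eq_card, Fintype.card_fin] at h1
      omega
    obtain ⟨y, hy⟩ : ∃ y, y ∉ V.map (zmap C) := by
      by_contra h; push Not at h; exact himg (Submodule.eq_top_iff'.2 h)
    set u := Cᵀ *ᵥ y with hu
    have hCu : C *ᵥ u = y := by rw [hu, mulVec_mulVec, hC, one_mulVec]
    have hu0 : u ≠ 0 := by
      intro h
      apply hy
      rw [← hCu, h, mulVec_zero]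
      exact Submodule.zero_mem _
    refine ⟨C * hh u, orth_mul hC (hh_orth u), hdet' u hu0, ?_⟩
    intro s hs h1
    have h2 := zmap_hh C u h1
    by_cases h4 : u ⬝ᵥ s.2 = 0
    · rw [h4] at h2
      simp only [mul_zero, zero_div, neg_zero, zero_smul] at h2
      rw [zmap_apply] at h2
      exact hT s hs (sub_eq_zero.1 h2)
    · exfalso
      apply hy
      have h5 : -(2 * (u ⬝ᵥ s.2) / (u ⬝ᵥ u)) ≠ 0 :=
        neg_ne_zero.2 (div_ne_zero (mul_ne_zero two_ne_zero h4) (dot_pos hu0).ne')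
      have h6 : y = (-(2 * (u ⬝ᵥ s.2) / (u ⬝ᵥ u)))⁻¹ • zmap C s := by
        rw [h2, smul_smul, inv_mul_cancel₀ h5, one_smul, hCu]
      rw [h6]
      exact Submodule.smul_mem _ _ (Submodule.mem_map_of_mem hs)
  · have hz0 : zmap C s₀ ≠ 0 := by
      intro h
      have h1 := hT s₀ hs₀ (by rw [zmap_apply] at h; exact sub_eq_zero.1 h)
      apply hQ
      rw [h1]
      simp [Qv]
    set u := Cᵀ *ᵥ zmap C s₀ with hu
    have hCu : C *ᵥ u = zmap C s₀ := by rw [hu, mulVec_mulVec, hC, one_mulVec]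
    have hu0 : u ≠ 0 := by
      intro h
      apply hz0
      rw [← hCu, h, mulVec_zero]
    refine ⟨C * hh u, orth_mul hC (hh_orth u), hdet' u hu0, ?_⟩
    intro s hs h1
    have h2 := zmap_hh C u h1
    rw [hCu, ← map_smul] at h2
    set c := -(2 * (u ⬝ᵥ s.2) / (u ⬝ᵥ u)) with hc
    have h3 : s - c • s₀ = 0 := by
      apply hT _ (V.sub_mem hs (V.smul_mem c hs₀))
      have : zmap C (s - c • s₀) = 0 := by rw [map_sub, h2, sub_self]
      rw [zmap_apply] at this
      exact sub_eq_zero.1 this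
    have h4 : s = c • s₀ := sub_eq_zero.1 h3
    have h5 : Qv s = 0 := Qv_eq_zero (orth_mul hC (hh_orth u)) h1
    have h6 : Qv s = c ^ 2 * Qv s₀ := by
      rw [h4]
      simp only [Qv, Prod.smul_fst, Prod.smul_snd, smul_dotProduct, dotProduct_smul, smul_eq_mul]
      ring
    rw [h6] at h5
    have h7 : c = 0 := by
      rcases mul_eq_zero.1 h5 with h | h
      · exact pow_eq_zero_iff (two_ne_zero) |>.1 h
      · exact absurd h hQ
    rw [h4, h7, zero_smul]

end Vale.Agent.P054.T2.H588
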