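import Vale.Agent.P054.T2.H588.Exist

set_option autoImplicit false
set_option linter.all false

/-! Orthogonal matrices which are generic over a subfield `k` of the reals. -/

namespace Vale.Agent.P054.T2.H588

open Matrix Module

variable {d : ℕ}

/-- `B` is a generic point over `k` of its component of the orthogonal group -/
def PG (k : Subfield ℝ) (B : Matrix (Fin d) (Fin d) ℝ) : Prop :=
  B * Bᵀ = 1 ∧ ∀ p : MvPolynomial (Fin d × Fin d) k, ev p B = 0 →
    ∀ C : Matrix (Fin d) (Fin d) ℝ, C * Cᵀ = 1 → C.det = B.det → ev p C = 0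

theorem PG.mono {k k' : Subfield ℝ} (h : k ≤ k') {B : Matrix (Fin d) (Fin d) ℝ} (hB : PG k' B) :
    PG k B := by
  refine ⟨hB.1, fun p hp C hC hdet => ?_⟩
  have key : ∀ A : Matrix (Fin d) (Fin d) ℝ,
      ev (MvPolynomial.map (Subfield.inclusion h) p) A = ev p A := by
    intro A
    unfold ev
    rw [MvPolynomial.aeval_def, MvPolynomial.aeval_def, MvPolynomial.eval₂_map]
    rfl
  rw [← key]
  exact hB.2 _ (by rw [key]; exact hp) C hC hdet

/-- evaluation of matrices of polynomials -/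
theorem ev_det {k : Type*} [CommRing k] [Algebra k ℝ] {m : ℕ}
    (M : Matrix (Fin m) (Fin m) (MvPolynomial (Fin d × Fin d) k))
    (A : Matrix (Fin d) (Fin d) ℝ) :
    ev M.det A = (M.map fun p => ev p A).det := by
  unfold ev
  exact RingHom.map_det (MvPolynomial.aeval fun ij : Fin d × Fin d => A ij.1 ij.2).toRingHom M

theorem ev_add {k : Type*} [CommRing k] [Algebra k ℝ] (p q : MvPolynomial (Fin d × Fin d) k)
    (A : Matrix (Fin d) (Fin d) ℝ) : ev (p + q) A = ev p A + ev q A := by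
  unfold ev; exact map_add _ _ _

theorem ev_sub {k : Type*} [CommRing k] [Algebra k ℝ] (p q : MvPolynomial (Fin d × Fin d) k)
    (A : Matrix (Fin d) (Fin d) ℝ) : ev (p - q) A = ev p A - ev q A := by
  unfold ev; exact map_sub _ _ _

theorem ev_mul {k : Type*} [CommRing k] [Algebra k ℝ] (p q : MvPolynomial (Fin d × Fin d) k)
    (A : Matrix (Fin d) (Fin d) ℝ) : ev (p * q) A = ev p A * ev q A := by
  unfold ev; exact map_mul _ _ _

theorem ev_sum {k : Type*} [CommRing k] [Algebra k ℝ] {ι : Type*} (s : Finset ι)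
    (p : ι → MvPolynomial (Fin d × Fin d) k)
    (A : Matrix (Fin d) (Fin d) ℝ) : ev (∑ i ∈ s, p i) A = ∑ i ∈ s, ev (p i) A := by
  unfold ev; exact map_sum _ _ _

theorem ev_C {k : Type*} [CommRing k] [Algebra k ℝ] (a : k)
    (A : Matrix (Fin d) (Fin d) ℝ) :
    ev (MvPolynomial.C a : MvPolynomial (Fin d × Fin d) k) A = algebraMap k ℝ a := by
  unfold ev; exact MvPolynomial.aeval_C _ _

theorem ev_X {k : Type*} [CommRing k] [Algebra k ℝ] (i j : Fin d)
    (A : Matrix (Fin d) (Fin d) ℝ) :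
    ev (MvPolynomial.X (i, j) : MvPolynomial (Fin d × Fin d) k) A = A i j := by
  unfold ev; exact MvPolynomial.aeval_X _ _

theorem injective_of_det_ne_zero {m : ℕ} {M : Matrix (Fin d) (Fin m) ℝ}
    (h : (Mᵀ * M).det ≠ 0) (w : Fin m → ℝ) (hw : M *ᵥ w = 0) : w = 0 := by
  by_contra hne
  apply h
  rw [← Matrix.exists_mulVec_eq_zero_iff]
  exact ⟨w, hne, by rw [← mulVec_mulVec, hw, mulVec_zero]⟩

theorem det_ne_zero_of_injective {m : ℕ} {M : Matrix (Fin d) (Fin m) ℝ}
    (h : ∀ w : Fin m → ℝ, M *ᵥ w = 0 → w = 0) : (Mᵀ * M).det ≠ 0 := by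
  intro hdet
  rw [← Matrix.exists_mulVec_eq_zero_iff] at hdet
  obtain ⟨w, hw, h0⟩ := hdet
  apply hw
  apply h
  have h1 : (M *ᵥ w) ⬝ᵥ (M *ᵥ w) = 0 := by
    rw [dotProduct_mulVec, vecMul_mulVec, ← dotProduct_mulVec]
    rw [← mulVec_mulVec] at h0
    rw [← mulVec_mulVec, h0, dotProduct_zero]
  exact dotProduct_self_eq_zero.1 h1

/-- vectors with coordinates in `k` -/
def InK (k : Subfield ℝ) (s : PV d) : Prop := (∀ i, s.1 i ∈ k) ∧ ∀ i, s.2 i ∈ k

/-- transversality of `B` to `span (range f)` is a polynomial condition over `k` -/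
theorem tr_of_PG {k : Subfield ℝ} {B : Matrix (Fin d) (Fin d) ℝ} (hB : PG k B) {m : ℕ}
    (f : Fin m → PV d) (hf : ∀ i, InK k (f i)) (hlin : LinearIndependent ℝ f)
    {C : Matrix (Fin d) (Fin d) ℝ} (hC : C * Cᵀ = 1) (hdet : C.det = B.det)
    (hT : Tr C (Submodule.span ℝ (Set.range f))) : Tr B (Submodule.span ℝ (Set.range f)) := by
  classical
  let X : Matrix (Fin d) (Fin m) ℝ := fun i j => (f j).1 i
  let X' : Matrix (Fin d) (Fin m) ℝ := fun i j => (f j).2 i
  let Xk : Matrix (Fin d) (Fin m) k := fun i j => ⟨(f j).1 i, (hf j).1 i⟩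
  let Xk' : Matrix (Fin d) (Fin m) k := fun i j => ⟨(f j).2 i, (hf j).2 i⟩
  let M : Matrix (Fin d) (Fin m) (MvPolynomial (Fin d × Fin d) k) := fun i j =>
    MvPolynomial.C (Xk i j) - ∑ l, MvPolynomial.X (i, l) * MvPolynomial.C (Xk' l j)
  have hM : ∀ A : Matrix (Fin d) (Fin d) ℝ, ev (Mᵀ * M).det A =
      ((X - A * X')ᵀ * (X - A * X')).det := by
    intro A
    rw [ev_det]
    congr 1
    ext i j
    have hMe : ∀ a b, ev (M a b) A = (X - A * X') a b := by
      intro a b
      simp only [M, ev_sub, ev_C, ev_X, ev_sum, ev_mul, Matrix.sub_apply, Matrix.mul_apply]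
      rfl
    rw [Matrix.map_apply, Matrix.mul_apply, ev_sum, Matrix.mul_apply]
    refine Finset.sum_congr rfl fun l _ => ?_
    rw [ev_mul, Matrix.transpose_apply, Matrix.transpose_apply, hMe, hMe]
  have hspan : ∀ w : Fin m → ℝ, (∑ i, w i • f i) = (X *ᵥ w, X' *ᵥ w) := by
    intro w
    ext i
    · simp [Prod.fst_sum, Matrix.mulVec, dotProduct, X, mul_comm]
    · simp [Prod.snd_sum, Matrix.mulVec, dotProduct, X', mul_comm]
  have hTr : ∀ A : Matrix (Fin d) (Fin d) ℝ, Tr A (Submodule.span ℝ (Set.range f)) ↔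
      ∀ w : Fin m → ℝ, (X - A * X') *ᵥ w = 0 → w = 0 := by
    intro A
    constructor
    · intro h w hw
      rw [sub_mulVec, ← mulVec_mulVec] at hw
      have h1 := h (∑ i, w i • f i) (Submodule.sum_mem _ fun i _ =>
        Submodule.smul_mem _ _ (Submodule.subset_span ⟨i, rfl⟩)) (by
          rw [hspan]
          exact sub_eq_zero.1 hw)
      ext i
      exact Fintype.linearIndependent_iff.1 hlin w h1 i
    · intro h s hs h1
      rw [Submodule.mem_span_range_iff_exists_fun] at hs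
      obtain ⟨w, rfl⟩ := hs
      have h2 : w = 0 := by
        apply h
        rw [hspan] at h1
        rw [sub_mulVec, ← mulVec_mulVec]
        exact sub_eq_zero.2 h1
      simp [h2]
  rw [hTr] at hT ⊢
  by_contra hcon
  push Not at hcon
  obtain ⟨w, hw, hne⟩ := hcon
  have h0 : ev (Mᵀ * M).det B = 0 := by
    rw [hM]
    by_contra h
    exact hne (injective_of_det_ne_zero h w hw)
  have h1 := hB.2 _ h0 C hC hdet
  rw [hM] at h1
  exact det_ne_zero_of_injective hT h1

/-- **(A1)** A generic matrix is transverse to every subspace `V` defined over `k` with `dim V < d`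
or `dim V = d` and `V` not isotropic. -/
theorem A1 {k : Subfield ℝ} {B : Matrix (Fin d) (Fin d) ℝ} (hB : PG k B)
    (S : Set (PV d)) (hS : ∀ s ∈ S, InK k s)
    (hd : finrank ℝ (Submodule.span ℝ S) ≤ d)
    (hQ : finrank ℝ (Submodule.span ℝ S) < d ∨ ∃ s ∈ Submodule.span ℝ S, Qv s ≠ 0) :
    Tr B (Submodule.span ℝ S) := by
  obtain ⟨f, hfS, hspan, hlin⟩ := Submodule.exists_fun_fin_finrank_span_eq ℝ S
  obtain ⟨C, hC, hdet, hT⟩ := exists_tr_det (Submodule.span ℝ S) hd hQ B hB.1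
  rw [← hspan] at hT ⊢
  exact tr_of_PG hB f (fun i => hS _ (hfS i)) hlin hC hdet hT

/-- **(A1')** Isotropic subspaces of dimension `d`, right type: it is enough that some matrix of the
same component is transverse. -/
theorem A1' {k : Subfield ℝ} {B : Matrix (Fin d) (Fin d) ℝ} (hB : PG k B)
    (S : Set (PV d)) (hS : ∀ s ∈ S, InK k s)
    {C : Matrix (Fin d) (Fin d) ℝ} (hC : C * Cᵀ = 1) (hdet : C.det = B.det)
    (hT : Tr C (Submodule.span ℝ S)) :
    Tr B (Submodule.span ℝ S) := by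
  obtain ⟨f, hfS, hspan, hlin⟩ := Submodule.exists_fun_fin_finrank_span_eq ℝ S
  rw [← hspan] at hT ⊢
  exact tr_of_PG hB f (fun i => hS _ (hfS i)) hlin hC hdet hT

end Vale.Agent.P054.T2.H588
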