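import Mathlib

set_option autoImplicit false
set_option linter.all false

/-! Reflection matrices, paths in the special orthogonal group, irreducibility of the two
components of the orthogonal group. -/

namespace Vale.Agent.P054.T2.H588

open Matrix

variable {d : ℕ}

/-- the matrix of the reflection in the hyperplane orthogonal to `u` -/
noncomputable def hh (u : Fin d → ℝ) : Matrix (Fin d) (Fin d) ℝ :=
  1 - (2 / (u ⬝ᵥ u)) • vecMulVec u u

theorem dot_pos {u : Fin d → ℝ} (hu : u ≠ 0) : 0 < u ⬝ᵥ u := by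
  have h0 : 0 ≤ u ⬝ᵥ u := by
    unfold dotProduct
    exact Finset.sum_nonneg fun i _ => mul_self_nonneg _
  have h1 : u ⬝ᵥ u ≠ 0 := fun h => hu (dotProduct_self_eq_zero.1 h)
  exact lt_of_le_of_ne h0 h1.symm

theorem hh_mulVec (u x : Fin d → ℝ) :
    hh u *ᵥ x = x - (2 * (u ⬝ᵥ x) / (u ⬝ᵥ u)) • u := by
  unfold hh
  rw [sub_mulVec, one_mulVec, smul_mulVec, vecMulVec_mulVec]
  ext i
  simp only [Pi.sub_apply, Pi.smul_apply, smul_eq_mul, MulOpposite.smul_eq_mul_unop,
    MulOpposite.unop_op]
  ring

theorem hh_transpose (u : Fin d → ℝ) : (hh u)ᵀ = hh u := by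
  unfold hh
  rw [transpose_sub, transpose_one, transpose_smul, transpose_vecMulVec]

theorem hh_mul_self (u : Fin d → ℝ) : hh u * hh u = 1 := by
  by_cases hu : u = 0
  · subst hu; simp [hh]
  have h := (dot_pos hu).ne'
  have key : vecMulVec u u * vecMulVec u u = (u ⬝ᵥ u) • vecMulVec u u := by
    rw [vecMulVec_mul_vecMulVec]
    ext i j
    simp [vecMulVec_apply]
    ring
  unfold hh
  rw [sub_mul, mul_sub, mul_sub, one_mul, mul_one, one_mul, smul_mul_smul_comm, key]
  ext i j
  simp only [Matrix.sub_apply, Matrix.smul_apply, smul_eq_mul]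
  field_simp
  ring

theorem det_hh {u : Fin d → ℝ} (hu : u ≠ 0) : (hh u).det = -1 := by
  have h := (dot_pos hu).ne'
  have h1 : hh u = 1 + replicateCol Unit (-(2 / (u ⬝ᵥ u)) • u) * replicateRow Unit u := by
    rw [← vecMulVec_eq]
    unfold hh
    ext i j
    simp [vecMulVec_apply]
    ring
  rw [h1, det_one_add_replicateCol_mul_replicateRow, dotProduct_smul, smul_eq_mul]
  field_simp
  ring

theorem hh_orth (u : Fin d → ℝ) : hh u * (hh u)ᵀ = 1 := by
  rw [hh_transpose, hh_mul_self]

/-- matrices with entries analytic on the line -/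
def AnM (M : ℝ → Matrix (Fin d) (Fin d) ℝ) : Prop :=
  ∀ i j, AnalyticOnNhd ℝ (fun t => M t i j) Set.univ

theorem AnM.const (M : Matrix (Fin d) (Fin d) ℝ) : AnM fun _ => M :=
  fun _ _ => analyticOnNhd_const

theorem AnM.mul {M N : ℝ → Matrix (Fin d) (Fin d) ℝ} (hM : AnM M) (hN : AnM N) :
    AnM fun t => M t * N t := by
  intro i j
  simp only [Matrix.mul_apply]
  exact Finset.analyticOnNhd_fun_sum _ fun k _ => (hM i k).mul (hN k j)

/-- `R` is joined to `1` by an analytic path of rotations -/
def RPath (R : Matrix (Fin d) (Fin d) ℝ) : Prop :=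
  ∃ N : ℝ → Matrix (Fin d) (Fin d) ℝ, AnM N ∧ (∀ t, N t * (N t)ᵀ = 1) ∧ (∀ t, (N t).det = 1) ∧
    N 0 = 1 ∧ N 1 = R

theorem RPath.one : RPath (1 : Matrix (Fin d) (Fin d) ℝ) :=
  ⟨fun _ => 1, AnM.const _, by simp, by simp, rfl, rfl⟩

theorem RPath.mul {R S : Matrix (Fin d) (Fin d) ℝ} (hR : RPath R) (hS : RPath S) :
    RPath (R * S) := by
  obtain ⟨N, a1, a2, a3, a4, a5⟩ := hR
  obtain ⟨M, b1, b2, b3, b4, b5⟩ := hS
  refine ⟨fun t => N t * M t, a1.mul b1, fun t => ?_, fun t => ?_, ?_, ?_⟩
  · rw [transpose_mul]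
    calc N t * M t * ((M t)ᵀ * (N t)ᵀ) = N t * (M t * (M t)ᵀ) * (N t)ᵀ := by
          simp only [Matrix.mul_assoc]
      _ = 1 := by rw [b2, Matrix.mul_one, a2]
  · rw [det_mul, a3, b3, one_mul]
  · simp [a4, b4]
  · simp [a5, b5]

theorem RPath.hh_mul_hh {u v : Fin d → ℝ} (hu : u ≠ 0) (hv : v ≠ 0) : RPath (hh u * hh v) := by
  by_cases hpar : ∃ c : ℝ, v = c • u
  · obtain ⟨c, rfl⟩ := hpar
    have hc : c ≠ 0 := by
      rintro rfl
      exact hv (zero_smul _ _)
    have h : hh (c • u) = hh u := by
      have h2 := (dot_pos hu).ne'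
      unfold hh
      ext i j
      simp only [Matrix.sub_apply, Matrix.smul_apply, vecMulVec_apply, smul_dotProduct,
        dotProduct_smul, Pi.smul_apply, smul_eq_mul]
      field_simp
    rw [h, hh_mul_self]
    exact RPath.one
  · -- the path
    set w : ℝ → Fin d → ℝ := fun t => u + t • (v - u) with hw
    have hw0 : ∀ t, w t ≠ 0 := by
      intro t ht
      have h1 : u + t • (v - u) = 0 := ht
      by_cases h0 : t = 0
      · rw [h0] at h1
        simp at h1
        exact hu h1
      · apply hpar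
        refine ⟨(t - 1) / t, ?_⟩
        ext i
        have h2 := congrFun h1 i
        simp at h2
        simp
        field_simp
        linarith
    have hwan : ∀ i, AnalyticOnNhd ℝ (fun t => w t i) Set.univ := by
      intro i
      simp only [hw, Pi.add_apply, Pi.smul_apply, Pi.sub_apply, smul_eq_mul]
      exact analyticOnNhd_const.add (analyticOnNhd_id.mul analyticOnNhd_const)
    have hdot : AnalyticOnNhd ℝ (fun t => w t ⬝ᵥ w t) Set.univ := by
      unfold dotProduct
      exact Finset.analyticOnNhd_fun_sum _ fun k _ => (hwan k).mul (hwan k)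
    have hH : AnM fun t => hh (w t) := by
      intro i j
      have : (fun t => hh (w t) i j) =
          fun t => (1 : Matrix (Fin d) (Fin d) ℝ) i j - 2 / (w t ⬝ᵥ w t) * (w t i * w t j) := by
        ext t
        simp [hh, vecMulVec_apply]
      rw [this]
      refine analyticOnNhd_const.sub (AnalyticOnNhd.mul ?_ ((hwan i).mul (hwan j)))
      exact analyticOnNhd_const.div hdot fun t _ => (dot_pos (hw0 t)).ne'
    refine ⟨fun t => hh u * hh (w t), (AnM.const _).mul hH, fun t => ?_, fun t => ?_, ?_, ?_⟩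
    · rw [transpose_mul]
      calc hh u * hh (w t) * ((hh (w t))ᵀ * (hh u)ᵀ) = hh u * (hh (w t) * (hh (w t))ᵀ) * (hh u)ᵀ := by
            simp only [Matrix.mul_assoc]
        _ = 1 := by rw [hh_orth, Matrix.mul_one, hh_orth]
    · rw [det_mul, det_hh hu, det_hh (hw0 t)]
      norm_num
    · have : w 0 = u := by simp [hw]
      simp only [this, hh_mul_self]
    · have : w 1 = v := by simp [hw]
      simp only [this]

theorem RPath.list : ∀ (n : ℕ) (L : List (Fin d → ℝ)), L.length = 2 * n → (∀ u ∈ L, u ≠ 0) →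
    RPath (L.map hh).prod
  | 0, L, hL, _ => by
    have : L = [] := List.length_eq_zero_iff.1 (by simpa using hL)
    subst this
    simpa using RPath.one
  | n + 1, L, hL, h0 => by
    match L, hL, h0 with
    | u :: v :: L', hL, h0 =>
      have h1 : L'.length = 2 * n := by
        simp at hL
        omega
      have h2 := RPath.list n L' h1 fun u hu => h0 u (by simp [hu])
      have h3 := (RPath.hh_mul_hh (h0 u (by simp)) (h0 v (by simp))).mul h2
      simpa [Matrix.mul_assoc] using h3

/-- Cartan–Dieudonné for orthogonal matrices -/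
theorem exists_list (n : ℕ) : ∀ R : Matrix (Fin d) (Fin d) ℝ, R * Rᵀ = 1 →
    d ≤ Module.finrank ℝ (LinearMap.ker (R - 1).mulVecLin) + n →
    ∃ L : List (Fin d → ℝ), (∀ u ∈ L, u ≠ 0) ∧ R = (L.map hh).prod := by
  induction n with
  | zero =>
    intro R hR hn
    have htop : LinearMap.ker (R - 1).mulVecLin = ⊤ := by
      apply Submodule.eq_top_of_finrank_eq
      have h1 := Submodule.finrank_le (LinearMap.ker (R - 1).mulVecLin)
      simp at h1 ⊢
      omega
    refine ⟨[], by simp, ?_⟩
    have h2 : ∀ x, (R - 1) *ᵥ x = 0 := by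
      intro x
      have : x ∈ LinearMap.ker (R - 1).mulVecLin := by rw [htop]; trivial
      exact this
    have h3 : R - 1 = 0 := by
      ext i j
      have := congrFun (h2 (Pi.single j 1)) i
      simpa using this
    simp only [List.map_nil, List.prod_nil]
    exact sub_eq_zero.1 h3
  | succ n ih =>
    intro R hR hn
    by_cases hone : ∀ x, R *ᵥ x = x
    · refine ⟨[], by simp, ?_⟩
      have h3 : R - 1 = 0 := by
        ext i j
        have := congrFun (hone (Pi.single j 1)) i
        simp at this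
        simp [this, Matrix.one_apply, Pi.single_apply]
      simp only [List.map_nil, List.prod_nil]
      exact sub_eq_zero.1 h3
    · push Not at hone
      obtain ⟨x, hx⟩ := hone
      set u := R *ᵥ x - x with hu
      have hu0 : u ≠ 0 := sub_ne_zero.2 hx
      have hRT : Rᵀ * R = 1 := mul_eq_one_comm.1 hR
      have hdotR : ∀ y z, (R *ᵥ y) ⬝ᵥ (R *ᵥ z) = y ⬝ᵥ z := by
        intro y z
        rw [dotProduct_mulVec, vecMul_mulVec, hRT, vecMul_one]
      have hfix : ∀ y, R *ᵥ y = y → (hh u * R) *ᵥ y = y := by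
        intro y hy
        rw [← mulVec_mulVec, hy, hh_mulVec]
        have : u ⬝ᵥ y = 0 := by
          rw [hu, sub_dotProduct]
          nth_rewrite 1 [← hy]
          rw [hdotR, sub_self]
        rw [this]
        simp
      have hfx : (hh u * R) *ᵥ x = x := by
        rw [← mulVec_mulVec, hh_mulVec]
        have h1 : 2 * (u ⬝ᵥ R *ᵥ x) = u ⬝ᵥ u := by
          rw [hu, dotProduct_sub, sub_dotProduct, sub_dotProduct, hdotR]
          rw [dotProduct_comm x (R *ᵥ x)]
          ring
        rw [h1, div_self (dot_pos hu0).ne', one_smul, hu]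
        simp
      have hlt : LinearMap.ker (R - 1).mulVecLin < LinearMap.ker (hh u * R - 1).mulVecLin := by
        refine lt_of_le_of_ne ?_ ?_
        · intro y hy
          have hy' : R *ᵥ y = y := by
            have : (R - 1) *ᵥ y = 0 := hy
            rw [sub_mulVec, one_mulVec] at this
            exact sub_eq_zero.1 this
          have : (hh u * R - 1) *ᵥ y = 0 := by
            rw [sub_mulVec, one_mulVec, hfix y hy', sub_self]
          exact this
        · intro heq
          have h1 : x ∈ LinearMap.ker (hh u * R - 1).mulVecLin := by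
            have : (hh u * R - 1) *ᵥ x = 0 := by
              rw [sub_mulVec, one_mulVec, hfx, sub_self]
            exact this
          rw [← heq] at h1
          have h2 : (R - 1) *ᵥ x = 0 := h1
          rw [sub_mulVec, one_mulVec] at h2
          exact hx (sub_eq_zero.1 h2)
      have hfr := Submodule.finrank_lt_finrank_of_lt hlt
      have horth : hh u * R * (hh u * R)ᵀ = 1 := by
        rw [transpose_mul]
        calc hh u * R * (Rᵀ * (hh u)ᵀ) = hh u * (R * Rᵀ) * (hh u)ᵀ := by
              simp only [Matrix.mul_assoc]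
          _ = 1 := by rw [hR, Matrix.mul_one, hh_orth]
      obtain ⟨L, hL0, hL⟩ := ih (hh u * R) horth (by omega)
      refine ⟨u :: L, ?_, ?_⟩
      · intro w hw
        rcases List.mem_cons.1 hw with rfl | hw
        · exact hu0
        · exact hL0 w hw
      · rw [List.map_cons, List.prod_cons, ← hL, ← Matrix.mul_assoc, hh_mul_self, Matrix.one_mul]

theorem det_list (L : List (Fin d → ℝ)) (h0 : ∀ u ∈ L, u ≠ 0) :
    (L.map hh).prod.det = (-1) ^ L.length := by
  induction L with
  | nil => simp
  | cons u L ih =>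
    rw [List.map_cons, List.prod_cons, det_mul, det_hh (h0 u (by simp)),
      ih fun w hw => h0 w (by simp [hw]), List.length_cons, pow_succ]
    ring

/-- every rotation is joined to `1` by an analytic path -/
theorem rpath_of_det_one {R : Matrix (Fin d) (Fin d) ℝ} (hR : R * Rᵀ = 1) (hdet : R.det = 1) :
    RPath R := by
  obtain ⟨L, h0, rfl⟩ := exists_list d R hR (by omega)
  rw [det_list L h0] at hdet
  have hev : Even L.length := by
    by_contra h
    rw [Nat.not_even_iff_odd] at h
    rw [h.neg_one_pow] at hdet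
    norm_num at hdet
  obtain ⟨n, hn⟩ := hev
  exact RPath.list n L (by omega) h0

/-- evaluation of a polynomial in the entries of a matrix -/
noncomputable def ev {k : Type*} [CommSemiring k] [Algebra k ℝ]
    (p : MvPolynomial (Fin d × Fin d) k) (A : Matrix (Fin d) (Fin d) ℝ) : ℝ :=
  MvPolynomial.aeval (fun ij : Fin d × Fin d => A ij.1 ij.2) p

theorem analytic_ev {k : Type*} [CommSemiring k] [Algebra k ℝ]
    (p : MvPolynomial (Fin d × Fin d) k) {M : ℝ → Matrix (Fin d) (Fin d) ℝ}
    (hM : AnM M) : AnalyticOnNhd ℝ (fun t => ev p (M t)) Set.univ := by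
  unfold ev
  induction p using MvPolynomial.induction_on with
  | C a =>
    simp only [MvPolynomial.aeval_C]
    exact analyticOnNhd_const
  | add p q hp hq =>
    simp only [map_add]
    exact hp.add hq
  | mul_X p i hp =>
    simp only [map_mul, MvPolynomial.aeval_X]
    exact hp.mul (hM i.1 i.2)

/-- **Irreducibility** of the two components of the orthogonal group, for real functions `f`, `g`
analytic along analytic paths. -/
theorem irr_fun {f g : Matrix (Fin d) (Fin d) ℝ → ℝ}
    (hf : ∀ M : ℝ → Matrix (Fin d) (Fin d) ℝ, AnM M →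
      AnalyticOnNhd ℝ (fun t => f (M t)) Set.univ)
    (hg : ∀ M : ℝ → Matrix (Fin d) (Fin d) ℝ, AnM M →
      AnalyticOnNhd ℝ (fun t => g (M t)) Set.univ)
    {A B : Matrix (Fin d) (Fin d) ℝ} (hA : A * Aᵀ = 1) (hB : B * Bᵀ = 1)
    (hdet : A.det = B.det) (hfA : f A ≠ 0) (hgB : g B ≠ 0) :
    ∃ C : Matrix (Fin d) (Fin d) ℝ, C * Cᵀ = 1 ∧ C.det = A.det ∧ f C ≠ 0 ∧ g C ≠ 0 := by
  have hAT : Aᵀ * A = 1 := mul_eq_one_comm.1 hA
  have hdA : A.det * A.det = 1 := by
    have := congrArg Matrix.det hA
    rwa [det_mul, det_transpose, det_one] at this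
  have hR : (Aᵀ * B) * (Aᵀ * B)ᵀ = 1 := by
    rw [transpose_mul, transpose_transpose]
    calc Aᵀ * B * (Bᵀ * A) = Aᵀ * (B * Bᵀ) * A := by simp only [Matrix.mul_assoc]
      _ = 1 := by rw [hB, Matrix.mul_one, hAT]
  obtain ⟨N, n1, n2, n3, n4, n5⟩ := rpath_of_det_one hR (by
    rw [det_mul, det_transpose, ← hdet, hdA])
  have hM : AnM fun t => A * N t := (AnM.const A).mul n1
  by_contra hcon
  push Not at hcon
  have hC : ∀ t ∈ (Set.univ : Set ℝ), f (A * N t) * g (A * N t) = 0 := by
    intro t _
    by_cases h : f (A * N t) = 0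
    · rw [h, zero_mul]
    · rw [hcon (A * N t) ?_ ?_ h, mul_zero]
      · rw [transpose_mul]
        calc A * N t * ((N t)ᵀ * Aᵀ) = A * (N t * (N t)ᵀ) * Aᵀ := by simp only [Matrix.mul_assoc]
          _ = 1 := by rw [n2, Matrix.mul_one, hA]
      · rw [det_mul, n3, mul_one]
  rcases AnalyticOnNhd.eq_zero_or_eq_zero_of_mul_eq_zero (hf _ hM) (hg _ hM) hC
    isPreconnected_univ with h | h
  · have := h 0 trivial
    rw [n4, Matrix.mul_one] at this
    exact hfA this
  · have := h 1 trivial
    rw [n5, ← Matrix.mul_assoc, hA, Matrix.one_mul] at this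
    exact hgB this

end Vale.Agent.P054.T2.H588
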