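import Vale.Agent.P054.T2.H428.EdgeB

set_option autoImplicit false
set_option linter.all false

/-! Restriction of `Side` and of the edge data to a subset of the edges. -/

namespace Vale.Agent.P054.T2.H588

open MvPolynomial Finset Module
open Vale.Agent.P054.T2.SecC

variable {n : ℕ} {A A' : Finset (ZZ n × ZZ n)} {W D σ σ₁ σ₂ v v₁ v₂ : ℕ}

theorem swp_mono (h : A' ⊆ A) : swp A' ⊆ swp A := fun _ he => mem_swp.2 (h (mem_swp.1 he))

/-- the same systems over fewer edges -/
def srestrict (S : Side n A W D σ v) (h : A' ⊆ A) : Side n A' W D σ v where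
  hW := S.hW
  hD := S.hD
  hσ := S.hσ
  hσ1 := S.hσ1
  hv := S.hv
  f := S.f
  F := S.F
  hleft := S.hleft
  hfdeg := S.hfdeg
  hFdeg := S.hFdeg
  hne := fun e he => S.hne e (h he)
  hQ := fun e he => S.hQ e (h he)
  hzero := fun e he => S.hzero e (h he)
  hind := fun e he => S.hind e (h he)
  hindf := fun e he => S.hindf e (h he)
  hindr := fun e he => S.hindr e (h he)
  hinc := fun e he => S.hinc e (h he)
  hincQ := fun e he => S.hincQ e (h he)

variable (S : Side n A W D σ v) (h : A' ⊆ A) (e : ZZ n × ZZ n)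

@[simp] theorem srestrict_f : (srestrict S h).f = S.f := rfl
@[simp] theorem srestrict_F : (srestrict S h).F = S.F := rfl
@[simp] theorem srestrict_P : (srestrict S h).P e = S.P e := rfl
@[simp] theorem srestrict_Pr : (srestrict S h).Pr e = S.Pr e := rfl
@[simp] theorem srestrict_V : (srestrict S h).V e = S.V e := rfl

theorem srestrict_cls_subset : (srestrict S h).cls e ⊆ S.cls e := by
  intro e' he'
  obtain ⟨h1, h2, h3⟩ := (srestrict S h).mem_cls.1 he'
  exact S.mem_cls.2 ⟨h h1, h2, h3⟩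

/-- counting is hereditary -/
theorem Cnt_srestrict {N G : ℕ} (hc : S.Cnt N G e) : (srestrict S h).Cnt N G e := by
  have h1 := Finset.card_le_card (srestrict_cls_subset S h e)
  rcases hc with hc | ⟨hv, a₀, hc⟩
  · exact Or.inl (h1.trans hc)
  · refine Or.inr ⟨hv, a₀, fun K => ?_⟩
    obtain ⟨k, hk, hk'⟩ := hc K
    exact ⟨k, hk, (Nat.mul_le_mul_right _ h1).trans hk'⟩

variable {S e}

theorem EdgeS_srestrict (hE : EdgeS S e) : EdgeS (srestrict S h) e :=
  ⟨hE.geni, hE.geniw, hE.genw, hE.genww⟩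

theorem Ste_srestrict (hE : Ste S e) : Ste (srestrict S h) e := hE

/-- the edge data are hereditary (and may be transported to any sides with the same systems) -/
theorem EdgeB_srestrict {S₁ : Side n A W D σ₁ v₂} {S₂ : Side n (swp A) W D σ₂ v₁}
    (hE : EdgeB S₁ S₂ e) : EdgeB (srestrict S₁ h) (srestrict S₂ (swp_mono h)) e :=
  ⟨EdgeS_srestrict h hE.side₁, EdgeS_srestrict (swp_mono h) hE.side₂, hE.hperp, hE.hw₁, hE.hw₂,
    hE.ste, hE.vertN, hE.vertA₁, hE.vertA₂⟩

end Vale.Agent.P054.T2.H588
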